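import Vale.Agent.P050.R3.H257.Base

/-!
# P050: graphs built vertex by vertex with fans
-/

namespace Vale.Agent.P050.Books

open Finset

/-- The fans derived from the fans in `F`. A fan is a pair `(X, E)`: the vertices in `X` are
independent neighbours of a hub, and each vertex in `E` is an independent common neighbour of its
neighbours in `X`. One may pass to a nonempty subset `X'` of `X` and the vertices of `E` whose
neighbours in `X` lie in `X'` (`sub`), also together with one vertex `u` of `E` adjacent to all of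
`X'` (`hub`); fans `({u}, E)` and `(E, {u})` are exchanged (`turn`, `turn'`). -/
inductive FDer {V : Type} [DecidableEq V] (H : SimpleGraph V) (F : Set (Finset V × Finset V)) :
    Finset V → Finset V → Prop
  | base {X E : Finset V} : (X, E) ∈ F → FDer H F X E
  | sub {X X' E E' : Finset V} : FDer H F X E → X' ⊆ X → X'.Nonempty → E' ⊆ E →
      (∀ z ∈ E', ∀ x ∈ X, H.Adj z x → x ∈ X') → FDer H F X' E'
  | hub {X X' E E' : Finset V} {u : V} : FDer H F X E → X' ⊆ X → X'.Nonempty → E' ⊆ E →
      (∀ z ∈ E', ∀ x ∈ X, H.Adj z x → x ∈ X') → u ∈ E → (∀ x ∈ X', H.Adj u x) →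
      FDer H F X' (insert u E')
  | turn {u : V} {E : Finset V} : FDer H F {u} E → E.Nonempty → FDer H F E {u}
  | turn' {X : Finset V} {u : V} : FDer H F X {u} → (∀ x ∈ X, H.Adj u x) → FDer H F {u} X

/-- `FBuilt H side U F β`: the subgraph of `H` induced on the set `U` can be built vertex by
vertex, `F` is the set of recorded fans and `β` the balance (for each side and each `m`). Start:
one vertex `v` and the fan `({v}, ∅)`. A new vertex whose neighbours among the old vertices form
the set `R` may be added if it is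
`early`: `(R, ∅)` is a derived fan; it joins `E` in all derived fans `(X, E)` with `R ⊆ X`, and it
joins `X` in all derived fans `(X, E)` such that `R = {u}`, `u ∈ E` is adjacent to all of `X`; the
balance grows by `|R| + 1 - m` if this is positive;
`late`: `R ⊆ E` for a derived fan `(X, E)`, and `C ⊆ X`, `C ≠ ∅`, all vertices of `C` are adjacent
to all of `R`; with `c = |C|`, `q u` the number of neighbours of `u` in `X` and `t` the number of
vertices of `X` with a neighbour in `R`, the balance changes by
`(∑ u ∈ R, min c (q u + 1 - m) - min c (t + 1 - m)) / c`;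
`pendant`: `R` consists of one vertex. -/
inductive FBuilt {V : Type} [DecidableEq V] (H : SimpleGraph V) (side : V → Bool) :
    Finset V → Set (Finset V × Finset V) → (Bool → ℕ → ℝ) → Prop
  | point (v : V) : FBuilt H side {v} {({v}, ∅)} (fun _ _ => 0)
  | early {U : Finset V} {F : Set (Finset V × Finset V)} {β : Bool → ℕ → ℝ} {v : V}
      {R : Finset V} : FBuilt H side U F β → v ∉ U → (∀ x ∈ U, H.Adj v x ↔ x ∈ R) →
      FDer H F R ∅ →
      FBuilt H side (insert v U)
        (F ∪ {p | ∃ X E, FDer H F X E ∧ R ⊆ X ∧ p = (X, insert v E)} ∪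
          {p | ∃ X E u, FDer H F X E ∧ R = {u} ∧ u ∈ E ∧ (∀ x ∈ X, H.Adj u x) ∧
            p = (insert v X, E)})
        (fun σ m => β σ m + if σ = side v then 0 else ((R.card + 1 - m : ℕ) : ℝ))
  | late {U : Finset V} {F : Set (Finset V × Finset V)} {β : Bool → ℕ → ℝ} {w : V}
      {R X E C T : Finset V} {Q : V → Finset V} : FBuilt H side U F β → w ∉ U →
      (∀ x ∈ U, H.Adj w x ↔ x ∈ R) → FDer H F X E → R ⊆ E → R.Nonempty → C ⊆ X → C.Nonempty →
      (∀ u ∈ R, ∀ a ∈ C, H.Adj u a) → (∀ u ∈ R, ∀ a, a ∈ Q u ↔ a ∈ X ∧ H.Adj u a) →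
      (∀ a, a ∈ T ↔ a ∈ X ∧ ∃ u ∈ R, H.Adj u a) →
      FBuilt H side (insert w U) F
        (fun σ m => β σ m + if σ = side w then
          (∑ u ∈ R, ((min C.card ((Q u).card + 1 - m) : ℕ) : ℝ) -
            ((min C.card (T.card + 1 - m) : ℕ) : ℝ)) / C.card else 0)
  | pendant {U : Finset V} {F : Set (Finset V × Finset V)} {β : Bool → ℕ → ℝ} {u v : V} :
      FBuilt H side U F β → v ∉ U → u ∈ U → (∀ x ∈ U, H.Adj v x ↔ x = u) →
      FBuilt H side (insert v U) F β

end Vale.Agent.P050.Books
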