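import Vale.Agent.P050.R4.H422.FanDef

/-!
# P050: graphs built vertex by vertex with fans, leaves and copies
-/

namespace Vale.Agent.P050.Books

open Finset

/-- `FanBuilt H side U F β`: the subgraph of `H` induced on the set `U` can be built vertex by
vertex from the empty set, `F` is the set of recorded fans and `β` the balance (for each side and
each `m`). A new vertex whose neighbours among the old vertices form the set `R` may be added
if it is
`early`: `(R, ∅)` is a derived fan; it joins `E` in all derived fans `(X, E)` with `R ⊆ X`, and it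
joins `X` in all derived fans `(X, E)` such that `R = {u}`, `u ∈ E` is adjacent to all of `X`; the
balance grows by `|R| + 1 - m` if this is positive;
`late`: `R ⊆ E` for a derived fan `(X, E)`, and `C ⊆ X`, `C ≠ ∅`, all vertices of `C` are adjacent
to all of `R`; with `c = |C|`, `q u` the number of neighbours of `u` in `X` and `t` the number of
vertices of `X` with a neighbour in `R`, the balance changes by
`(∑ u ∈ R, min c (q u + 1 - m) - min c (t + 1 - m)) / c`;
`pendant`: `R` consists of one vertex;
a `leaf`: `R` is empty; `(X, E)` is a derived fan or `X = E = ∅`; then `(insert v X, E)` is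
recorded and the balance decreases by one if `m ≤ |X| + 1`;
a `copy`: `(insert i X, E)` is a derived fan and `R` consists of the neighbours of `i` in `E`; then
`(insert v X, E)` is recorded, the balance decreases by one if `m ≤ |X| + 1` and grows by the
number of the vertices of `R` with at least `m` neighbours in `insert i X`. -/
inductive FanBuilt {V : Type} [DecidableEq V] (H : SimpleGraph V) (side : V → Bool) :
    Finset V → Set (Finset V × Finset V) → (Bool → ℕ → ℝ) → Prop
  | start : FanBuilt H side ∅ ∅ (fun _ _ => 0)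
  | early {U : Finset V} {F : Set (Finset V × Finset V)} {β : Bool → ℕ → ℝ} {v : V}
      {R : Finset V} : FanBuilt H side U F β → v ∉ U → (∀ x ∈ U, H.Adj v x ↔ x ∈ R) →
      FDer H F R ∅ →
      FanBuilt H side (insert v U)
        (F ∪ {p | ∃ X E, FDer H F X E ∧ R ⊆ X ∧ p = (X, insert v E)} ∪
          {p | ∃ X E u, FDer H F X E ∧ R = {u} ∧ u ∈ E ∧ (∀ x ∈ X, H.Adj u x) ∧
            p = (insert v X, E)})
        (fun σ m => β σ m + if σ = side v then 0 else ((R.card + 1 - m : ℕ) : ℝ))
  | late {U : Finset V} {F : Set (Finset V × Finset V)} {β : Bool → ℕ → ℝ} {w : V}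
      {R X E C T : Finset V} {Q : V → Finset V} : FanBuilt H side U F β → w ∉ U →
      (∀ x ∈ U, H.Adj w x ↔ x ∈ R) → FDer H F X E → R ⊆ E → R.Nonempty → C ⊆ X → C.Nonempty →
      (∀ u ∈ R, ∀ a ∈ C, H.Adj u a) → (∀ u ∈ R, ∀ a, a ∈ Q u ↔ a ∈ X ∧ H.Adj u a) →
      (∀ a, a ∈ T ↔ a ∈ X ∧ ∃ u ∈ R, H.Adj u a) →
      FanBuilt H side (insert w U) F
        (fun σ m => β σ m + if σ = side w then
          (∑ u ∈ R, ((min C.card ((Q u).card + 1 - m) : ℕ) : ℝ) -
            ((min C.card (T.card + 1 - m) : ℕ) : ℝ)) / C.card else 0)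
  | pendant {U : Finset V} {F : Set (Finset V × Finset V)} {β : Bool → ℕ → ℝ} {u v : V} :
      FanBuilt H side U F β → v ∉ U → u ∈ U → (∀ x ∈ U, H.Adj v x ↔ x = u) →
      FanBuilt H side (insert v U) F β
  | leaf {U : Finset V} {F : Set (Finset V × Finset V)} {β : Bool → ℕ → ℝ} {v : V}
      {X E : Finset V} : FanBuilt H side U F β → v ∉ U → (∀ x ∈ U, ¬ H.Adj v x) →
      FDer H F X E ∨ (X = ∅ ∧ E = ∅) → (∀ x ∈ X, side x = side v) →
      FanBuilt H side (insert v U) (insert (insert v X, E) F)
        (fun σ m => β σ m + if σ = side v then (0 : ℝ) - (if m ≤ X.card + 1 then 1 else 0)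
          else 0)
  | copy {U : Finset V} {F : Set (Finset V × Finset V)} {β : Bool → ℕ → ℝ} {i v : V}
      {X E R : Finset V} {Q : V → Finset V} : FanBuilt H side U F β → v ∉ U →
      side i = side v → i ∉ X → FDer H F (insert i X) E →
      (∀ u, u ∈ R ↔ u ∈ E ∧ H.Adj u i) → (∀ x ∈ U, H.Adj v x ↔ x ∈ R) →
      (∀ u ∈ R, ∀ x, x ∈ Q u ↔ x ∈ insert i X ∧ H.Adj u x) →
      FanBuilt H side (insert v U) (insert (insert v X, E) F)
        (fun σ m => β σ m + if σ = side v then
          (∑ u ∈ R, (if m ≤ (Q u).card then 1 else 0)) - (if m ≤ X.card + 1 then 1 else 0)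
          else 0)

end Vale.Agent.P050.Books
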