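import Vale.Agent.P050.R4.H22.Fin2

/-!
# P050: graphs with two adjacent hubs
-/

set_option linter.unusedSectionVars false

namespace Vale.Agent.P050.Books

open Finset Vale.Agent.P050.Lev Vale.Agent.P050.Ears

theorem bool_eq {x y z : Bool} (h1 : x ≠ z) (h2 : y ≠ z) : x = y := by
  cases x <;> cases y <;> cases z <;> simp_all

section Mix

variable {V S : Type} [Fintype V] [DecidableEq V] [Fintype S]
  {side : V → Bool} {A : Matrix S S ℝ} {μ : S → ℝ} {c : S → Bool}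

theorem rr_singleton (h : Rev A μ c) (u v : V) (z : V → S) :
    rr A μ {u} v z = kk A μ (z u) (z v) := by
  unfold rr
  rw [hQ_singleton h, Finset.prod_singleton, inv_one, mul_one]

theorem hQ_one_pos (h : Rev A μ c) (u : V) {ρ : (V → S) → ℝ} :
    ∀ z : V → S, (∏ v, mm side μ c v (z v)) ≠ 0 → ρ z ≠ 0 → 0 < hQ A μ {u} z :=
  fun z _ _ => by rw [hQ_singleton h]; exact zero_lt_one

/-- a pendant vertex -/
theorem Law.pend (h : Rev A μ c) {H : SimpleGraph V} (hs : ∀ u v, H.Adj u v → side u ≠ side v)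
    {U : Finset V} {u v : V} {ρ : (V → S) → ℝ} (hl : Law H side A μ c U ρ (fun _ => 1))
    (hv : v ∉ U) (hu : u ∈ U) (hR : ∀ x ∈ U, H.Adj v x ↔ x = u) :
    Law H side A μ c (insert v U) (fun z => ρ z * kk A μ (z u) (z v)) (fun _ => 1) := by
  have hRU : ({u} : Finset V) ⊆ U := by
    rw [Finset.singleton_subset_iff]
    exact hu
  have h1 := hl.attach h hs hv (singleton_nonempty u) hRU (fun x hx => by
    rw [mem_singleton]
    exact hR x hx) (hQ_one_pos h u) (by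
    refine le_of_eq ?_
    simp only [hQ_singleton h, Real.log_one, mul_zero]
    unfold EM
    simp)
  simp only [rr_singleton h, hQ_singleton h, mul_one] at h1
  exact h1

/-- the law of a hub with independent neighbours, with its density -/
theorem star_law' (h : Rev A μ c) {H : SimpleGraph V}
    (hs : ∀ u v, H.Adj u v → side u ≠ side v) (b : V) (A₀ : Finset V)
    (hb : ∀ a ∈ A₀, H.Adj b a) :
    Law H side A μ c (insert b A₀) (fun z => ∏ a ∈ A₀, kk A μ (z b) (z a)) (fun _ => 1) ∧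
      IsBook side A μ c (insert b A₀) (fun z => ∏ a ∈ A₀, kk A μ (z b) (z a)) {b} A₀ := by
  induction A₀ using Finset.induction_on with
  | empty =>
    simp only [Finset.prod_empty]
    exact ⟨law_point h H side b, isBook_point h b⟩
  | insert a A₀ ha ih =>
    obtain ⟨hl, hbk⟩ := ih fun x hx => hb x (mem_insert_of_mem hx)
    have hba : H.Adj b a := hb a (mem_insert_self _ _)
    have hv : a ∉ insert b A₀ := by
      rw [mem_insert, not_or]
      exact ⟨fun e => H.loopless.irrefl _ (e ▸ hba), ha⟩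
    have hR : ∀ x ∈ insert b A₀, H.Adj a x ↔ x = b := by
      intro x hx
      rcases mem_insert.1 hx with rfl | hx
      · exact ⟨fun _ => rfl, fun _ => hba.symm⟩
      · constructor
        · intro hax
          have h1 := hs _ _ hax
          have h2 := hs _ _ hba
          have h3 := hs _ _ (hb x (mem_insert_of_mem hx))
          exfalso
          cases h4 : side a <;> cases h5 : side x <;> cases h6 : side b <;> simp_all
        · rintro rfl
          exact hba.symm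
    have hsd : ∀ i ∈ ({b} : Finset V), side i ≠ side a := by
      intro i hi
      rw [mem_singleton.1 hi]
      exact hs _ _ hba
    have e : insert b (insert a A₀) = insert a (insert b A₀) := Finset.insert_comm _ _ _
    have e2 : (fun z : V → S => ∏ x ∈ insert a A₀, kk A μ (z b) (z x)) =
        fun z => (∏ x ∈ A₀, kk A μ (z b) (z x)) * kk A μ (z b) (z a) := by
      funext z
      rw [Finset.prod_insert ha, mul_comm]
    rw [e, e2]
    refine ⟨hl.pend h hs hv (mem_insert_self _ _) hR, ?_⟩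
    have h1 := hbk.page h hl.dep hv hsd
    simp only [rr_singleton h] at h1
    exact h1

/-- the law of a double star, with its density -/
theorem dstar_law (h : Rev A μ c) {H : SimpleGraph V}
    (hs : ∀ u v, H.Adj u v → side u ≠ side v) {a b : V} {A₀ : Finset V} (ha : a ∈ A₀)
    (hb : ∀ x ∈ A₀, H.Adj b x) (Z : Finset V)
    (hZ : ∀ y ∈ Z, y ≠ b ∧ side y = side b ∧ tr H A₀ y = {a}) :
    Law H side A μ c (insert b A₀ ∪ Z) (fun z => (∏ x ∈ A₀, kk A μ (z b) (z x)) *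
      ∏ y ∈ Z, kk A μ (z a) (z y)) (fun _ => 1) ∧
    IsFan side A μ c (insert b A₀ ∪ Z) (fun z => (∏ x ∈ A₀, kk A μ (z b) (z x)) *
      ∏ y ∈ Z, kk A μ (z a) (z y)) A₀ (insert b Z) (tr H A₀) := by
  have hQb : tr H A₀ b = A₀ := by
    ext i
    rw [mem_tr]
    exact ⟨fun hi => hi.1, fun hi => ⟨hi, hb i hi⟩⟩
  induction Z using Finset.induction_on with
  | empty =>
    obtain ⟨hl, hbk⟩ := star_law' (side := side) h hs b A₀ hb
    simp only [Finset.union_empty, Finset.prod_empty, mul_one]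
    exact ⟨hl, fan_base h hl.nonneg hl.one ⟨a, ha⟩ hbk hQb⟩
  | insert v Z hvZ ih =>
    obtain ⟨hl, hf⟩ := ih fun z hz => hZ z (mem_insert_of_mem hz)
    obtain ⟨hvb, hvs, hvt⟩ := hZ v (mem_insert_self _ _)
    have hvA : v ∉ A₀ := by
      intro hm
      have := hs _ _ (hb v hm)
      rw [hvs] at this
      exact this rfl
    have hv : v ∉ insert b A₀ ∪ Z := by
      rw [mem_union, not_or, mem_insert, not_or]
      exact ⟨⟨hvb, hvA⟩, hvZ⟩
    have haU : a ∈ insert b A₀ ∪ Z := mem_union_left _ (mem_insert_of_mem ha)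
    have hR : ∀ x ∈ insert b A₀ ∪ Z, H.Adj v x ↔ x = a := by
      intro x hx
      have hxt : H.Adj v x ↔ x ∈ tr H A₀ v := by
        rw [mem_tr]
        constructor
        · intro hvx
          refine ⟨?_, hvx⟩
          have h1 := hs _ _ hvx
          rcases mem_union.1 hx with hx | hx
          · rcases mem_insert.1 hx with rfl | hx
            · exact absurd hvs h1
            · exact hx
          · exact absurd (hvs.trans (hZ x (mem_insert_of_mem hx)).2.1.symm) h1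
        · exact fun hx => hx.2
      rw [hxt, hvt, mem_singleton]
    have hsd : ∀ i ∈ A₀, side i ≠ side v := by
      intro i hi
      rw [hvs]
      exact (hs _ _ (hb i hi)).symm
    have e2 : (fun z : V → S => (∏ x ∈ A₀, kk A μ (z b) (z x)) *
        ∏ y ∈ insert v Z, kk A μ (z a) (z y)) =
        fun z => ((∏ x ∈ A₀, kk A μ (z b) (z x)) * ∏ y ∈ Z, kk A μ (z a) (z y)) *
          kk A μ (z a) (z v) := by
      funext z
      rw [Finset.prod_insert hvZ]
      ring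
    rw [Finset.union_insert, Finset.insert_comm, e2]
    refine ⟨hl.pend h hs hv haU hR, ?_⟩
    have h1 := hf.add h hl hv (singleton_nonempty a) (mem_singleton_self a)
      (Finset.singleton_subset_iff.2 ha) hvt hsd (hQ_one_pos h a)
    simp only [rr_singleton h] at h1
    exact h1

/-- the law of a double star and its two fans -/
theorem dstar_fans (h : Rev A μ c) {H : SimpleGraph V}
    (hs : ∀ u v, H.Adj u v → side u ≠ side v) {a b : V} {A₀ B₀ : Finset V} (ha : a ∈ A₀)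
    (hb : b ∈ B₀) (hbA : ∀ x ∈ A₀, H.Adj b x) (haB : ∀ y ∈ B₀, H.Adj a y)
    (h00 : ∀ x ∈ A₀, ∀ y ∈ B₀, H.Adj x y → x = a ∨ y = b) :
    ∃ ρ L : (V → S) → ℝ, Law H side A μ c (A₀ ∪ B₀) ρ L ∧
      IsFan side A μ c (A₀ ∪ B₀) ρ A₀ B₀ (tr H A₀) ∧
      IsFan side A μ c (A₀ ∪ B₀) ρ B₀ A₀ (tr H B₀) := by
  have hab := hs _ _ (hbA a ha)
  have hsB : ∀ y ∈ B₀, side y = side b := fun y hy => bool_eq (hs _ _ (haB y hy)).symm hab
  have hsA : ∀ x ∈ A₀, side x = side a := fun x hx => bool_eq (hs _ _ (hbA x hx)).symm hab.symm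
  obtain ⟨hl, hf⟩ := dstar_law (side := side) h hs ha hbA (B₀.erase b) (by
    intro y hy
    have hyb := Finset.ne_of_mem_erase hy
    have hyB := Finset.mem_of_mem_erase hy
    refine ⟨hyb, hsB y hyB, ?_⟩
    ext x
    rw [mem_tr, mem_singleton]
    constructor
    · rintro ⟨hx, hyx⟩
      exact (h00 x hx y hyB hyx.symm).resolve_right hyb
    · rintro rfl
      exact ⟨ha, (haB y hyB).symm⟩)
  obtain ⟨-, hg⟩ := dstar_law (side := side) h hs hb haB (A₀.erase a) (by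
    intro x hx
    have hxa := Finset.ne_of_mem_erase hx
    have hxA := Finset.mem_of_mem_erase hx
    refine ⟨hxa, hsA x hxA, ?_⟩
    ext y
    rw [mem_tr, mem_singleton]
    constructor
    · rintro ⟨hy, hxy⟩
      exact (h00 x hxA y hy hxy).resolve_left hxa
    · rintro rfl
      exact ⟨hb, (hbA x hxA).symm⟩)
  have e1 : insert b A₀ ∪ B₀.erase b = A₀ ∪ B₀ := by
    rw [Finset.insert_union, ← Finset.union_insert, Finset.insert_erase hb]
  have e2 : insert a B₀ ∪ A₀.erase a = A₀ ∪ B₀ := by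
    rw [Finset.insert_union, ← Finset.union_insert, Finset.insert_erase ha, Finset.union_comm]
  have e3 : (fun z : V → S => (∏ x ∈ B₀, kk A μ (z a) (z x)) *
      ∏ y ∈ A₀.erase a, kk A μ (z b) (z y)) =
      fun z => (∏ x ∈ A₀, kk A μ (z b) (z x)) * ∏ y ∈ B₀.erase b, kk A μ (z a) (z y) := by
    funext z
    rw [← Finset.mul_prod_erase B₀ _ hb, ← Finset.mul_prod_erase A₀ _ ha, kk_symm h (z a) (z b)]
    ring
  rw [e1, Finset.insert_erase hb] at hf
  rw [e2, e3, Finset.insert_erase ha] at hg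
  rw [e1] at hl
  exact ⟨_, _, hl, hf, hg⟩

/-- an early vertex -/
theorem fans_early (h : Rev A μ c) {H : SimpleGraph V}
    (hs : ∀ u v, H.Adj u v → side u ≠ side v) {U A₀ B₀ A₁ B₁ : Finset V} {Q Q' : V → Finset V}
    {v : V} {ρ L : (V → S) → ℝ} (hl : Law H side A μ c U ρ L)
    (hf : IsFan side A μ c U ρ A₀ B₁ Q) (hg : IsFan side A μ c U ρ B₀ A₁ Q')
    (hv : v ∉ U) (hvn : (Q v).Nonempty) (hQA : Q v ⊆ A₀) (hR : ∀ x ∈ U, H.Adj v x ↔ x ∈ Q v)
    (hsd : ∀ i ∈ A₀, side i ≠ side v) :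
    ∃ ρ' L' : (V → S) → ℝ, Law H side A μ c (insert v U) ρ' L' ∧
      IsFan side A μ c (insert v U) ρ' A₀ (insert v B₁) Q ∧
      IsFan side A μ c (insert v U) ρ' B₀ A₁ Q' := by
  have hQU : Q v ⊆ U := hQA.trans (Finset.subset_union_left.trans hf.sub)
  have hp := hf.pos h hQA
  obtain ⟨i, hi⟩ := id hvn
  refine ⟨_, _, hl.attach h hs hv hvn hQU hR hp ?_,
    hf.add h hl hv hvn hi hQA rfl hsd hp,
    hg.keep h hl.dep hv hQU hi (hsd i (hQA hi)) hp⟩
  have h1 := hf.star _ hQA hvn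
  have h2 := DD_nonneg (side := side) h hl.nonneg hl.one (Q v)
  rw [← h1] at h2
  exact h2

/-- a late vertex -/
theorem fans_late (h : Rev A μ c) {H : SimpleGraph V}
    (hs : ∀ u v, H.Adj u v → side u ≠ side v) {U A₀ B₀ A₁ B₁ R : Finset V} {Q Q' : V → Finset V}
    {w r a : V} {ρ L : (V → S) → ℝ} (hl : Law H side A μ c U ρ L)
    (hf : IsFan side A μ c U ρ A₀ B₁ Q) (hg : IsFan side A μ c U ρ B₀ A₁ Q')
    (hw : w ∉ U) (hRB : R ⊆ B₁) (hR : ∀ x ∈ U, H.Adj w x ↔ x ∈ R)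
    (hr : r ∈ R) (ha : ∀ u ∈ R, a ∈ Q u) (ht : ∀ u ∈ R, Q u ⊆ Q r) :
    ∃ ρ' L' : (V → S) → ℝ, Law H side A μ c (insert w U) ρ' L' ∧
      IsFan side A μ c (insert w U) ρ' A₀ B₁ Q ∧
      IsFan side A μ c (insert w U) ρ' B₀ A₁ Q' := by
  have hRU : R ⊆ U := hRB.trans (Finset.subset_union_right.trans hf.sub)
  have hp : ∀ z : V → S, (∏ v, mm side μ c v (z v)) ≠ 0 → ρ z ≠ 0 → 0 < hQ A μ R z :=
    fun z hz h0 => Books.hQ_pos h (x := z a) fun u hu => by
      have := hf.kp z hz h0 u (hRB hu) a (ha u hu)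
      rw [kk_symm h] at this
      exact this.ne'
  have hsd : side r ≠ side w := (hs _ _ ((hR r (hRU hr)).2 hr)).symm
  exact ⟨_, _, hl.attach h hs hw ⟨r, hr⟩ hRU hR hp (hf.top h hl.nonneg hl.one hRB hr ha ht),
    hf.keep h hl.dep hw hRU hr hsd hp, hg.keep h hl.dep hw hRU hr hsd hp⟩

/-- the law of a graph with two adjacent hubs -/
theorem dhub_law (h : Rev A μ c) {H : SimpleGraph V}
    (hs : ∀ u v, H.Adj u v → side u ≠ side v) {a b : V} {A₀ B₀ A₁ B₁ : Finset V} (ha : a ∈ A₀)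
    (hb : b ∈ B₀) (hbA : ∀ x ∈ A₀, H.Adj b x) (haB : ∀ y ∈ B₀, H.Adj a y)
    (h00 : ∀ x ∈ A₀, ∀ y ∈ B₀, H.Adj x y → x = a ∨ y = b)
    (hA₁ : ∀ x ∈ A₁, ∃ y ∈ B₀, H.Adj x y) (hB₁ : ∀ y ∈ B₁, ∃ x ∈ A₀, H.Adj y x)
    (h11 : ∀ x ∈ A₁, ∀ y ∈ B₁, ¬ H.Adj x y)
    (hw : ∀ w, side w = side a → w ∉ A₀ → w ∉ A₁ → ∃ r x, H.Adj w r ∧ x ∈ A₀ ∧
      ∀ u, H.Adj w u → (u ∈ B₀ ∨ u ∈ B₁) ∧ H.Adj u x ∧ ∀ x' ∈ A₀, H.Adj u x' → H.Adj r x')
    (hv : ∀ v, side v = side b → v ∉ B₀ → v ∉ B₁ → ∃ r y, H.Adj v r ∧ y ∈ B₀ ∧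
      ∀ u, H.Adj v u → (u ∈ A₀ ∨ u ∈ A₁) ∧ H.Adj u y ∧ ∀ y' ∈ B₀, H.Adj u y' → H.Adj r y') :
    ∃ ρ L : (V → S) → ℝ, Law H side A μ c univ ρ L := by
  classical
  have hab := hs _ _ (hbA a ha)
  have hsB : ∀ y ∈ B₀, side y = side b := fun y hy => bool_eq (hs _ _ (haB y hy)).symm hab
  have hsA : ∀ x ∈ A₀, side x = side a := fun x hx => bool_eq (hs _ _ (hbA x hx)).symm hab.symm
  have hsB₁ : ∀ y ∈ B₁, side y = side b := by
    intro y hy
    obtain ⟨x, hx, hyx⟩ := hB₁ y hy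
    have h1 := hs _ _ hyx
    rw [hsA x hx] at h1
    exact bool_eq h1 hab
  have hsA₁ : ∀ x ∈ A₁, side x = side a := by
    intro x hx
    obtain ⟨y, hy, hxy⟩ := hA₁ x hx
    have h1 := hs _ _ hxy
    rw [hsB y hy] at h1
    exact bool_eq h1 hab.symm
  -- the early vertices on the side of `b`
  have key1 : ∀ E : Finset V, E ⊆ B₁ \ B₀ → ∃ ρ L : (V → S) → ℝ,
      Law H side A μ c (A₀ ∪ B₀ ∪ E) ρ L ∧
      IsFan side A μ c (A₀ ∪ B₀ ∪ E) ρ A₀ (B₀ ∪ E) (tr H A₀) ∧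
      IsFan side A μ c (A₀ ∪ B₀ ∪ E) ρ B₀ A₀ (tr H B₀) := by
    intro E
    induction E using Finset.induction_on with
    | empty =>
      intro _
      rw [Finset.union_empty, Finset.union_empty]
      exact dstar_fans h hs ha hb hbA haB h00
    | insert v E hvE ih =>
      intro hE
      obtain ⟨ρ, L, hl, hf, hg⟩ := ih fun x hx => hE (mem_insert_of_mem hx)
      obtain ⟨hvB₁, hvB₀⟩ := mem_sdiff.1 (hE (mem_insert_self _ _))
      have hvs := hsB₁ v hvB₁
      have hvU : v ∉ A₀ ∪ B₀ ∪ E := by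
        simp only [mem_union, not_or]
        refine ⟨⟨fun hm => ?_, hvB₀⟩, hvE⟩
        rw [hsA v hm] at hvs
        exact hab hvs.symm
      have hvn : (tr H A₀ v).Nonempty := by
        obtain ⟨x, hx, hvx⟩ := hB₁ v hvB₁
        exact ⟨x, mem_tr.2 ⟨hx, hvx⟩⟩
      rw [Finset.union_insert, Finset.union_insert]
      refine fans_early h hs hl hf hg hvU hvn (fun i hi => (mem_tr.1 hi).1) (fun x hx => ?_)
        (fun i hi => by
          rw [hsA i hi, hvs]
          exact hab.symm)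
      rw [mem_tr]
      refine ⟨fun hvx => ⟨?_, hvx⟩, fun hx => hx.2⟩
      have h1 := hs _ _ hvx
      rw [hvs] at h1
      simp only [mem_union] at hx
      rcases hx with (hx | hx) | hx
      · exact hx
      · exact absurd (hsB x hx).symm h1
      · exact absurd (hsB₁ x (mem_sdiff.1 (hE (mem_insert_of_mem hx))).1).symm h1
  -- the early vertices on the side of `a`
  have key2 : ∀ E : Finset V, E ⊆ A₁ \ A₀ → ∃ ρ L : (V → S) → ℝ,
      Law H side A μ c (A₀ ∪ B₀ ∪ (B₁ \ B₀) ∪ E) ρ L ∧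
      IsFan side A μ c (A₀ ∪ B₀ ∪ (B₁ \ B₀) ∪ E) ρ A₀ (B₀ ∪ (B₁ \ B₀)) (tr H A₀) ∧
      IsFan side A μ c (A₀ ∪ B₀ ∪ (B₁ \ B₀) ∪ E) ρ B₀ (A₀ ∪ E) (tr H B₀) := by
    intro E
    induction E using Finset.induction_on with
    | empty =>
      intro _
      rw [Finset.union_empty, Finset.union_empty]
      exact key1 _ (Finset.Subset.refl _)
    | insert v E hvE ih =>
      intro hE
      obtain ⟨ρ, L, hl, hf, hg⟩ := ih fun x hx => hE (mem_insert_of_mem hx)
      obtain ⟨hvA₁, hvA₀⟩ := mem_sdiff.1 (hE (mem_insert_self _ _))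
      have hvs := hsA₁ v hvA₁
      have hvU : v ∉ A₀ ∪ B₀ ∪ (B₁ \ B₀) ∪ E := by
        simp only [mem_union, not_or]
        refine ⟨⟨⟨hvA₀, fun hm => ?_⟩, fun hm => ?_⟩, hvE⟩
        · rw [hsB v hm] at hvs
          exact hab hvs
        · rw [hsB₁ v (mem_sdiff.1 hm).1] at hvs
          exact hab hvs
      have hvn : (tr H B₀ v).Nonempty := by
        obtain ⟨x, hx, hvx⟩ := hA₁ v hvA₁
        exact ⟨x, mem_tr.2 ⟨hx, hvx⟩⟩
      rw [Finset.union_insert, Finset.union_insert]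
      obtain ⟨ρ', L', h1, h2, h3⟩ := fans_early h hs hl hg hf hvU hvn
        (fun i hi => (mem_tr.1 hi).1) (fun x hx => by
          rw [mem_tr]
          refine ⟨fun hvx => ⟨?_, hvx⟩, fun hx => hx.2⟩
          have h1 := hs _ _ hvx
          rw [hvs] at h1
          simp only [mem_union] at hx
          rcases hx with ((hx | hx) | hx) | hx
          · exact absurd (hsA x hx).symm h1
          · exact hx
          · exact absurd hvx (h11 v hvA₁ x (mem_sdiff.1 hx).1)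
          · exact absurd (hsA₁ x (mem_sdiff.1 (hE (mem_insert_of_mem hx))).1).symm h1)
        (fun i hi => by
          rw [hsB i hi, hvs]
          exact hab)
      exact ⟨ρ', L', h1, h3, h2⟩
  -- the late vertices
  have hBu : B₀ ∪ (B₁ \ B₀) = B₀ ∪ B₁ := Finset.union_sdiff_self_eq_union
  have hAu : A₀ ∪ (A₁ \ A₀) = A₀ ∪ A₁ := Finset.union_sdiff_self_eq_union
  have hU : A₀ ∪ B₀ ∪ (B₁ \ B₀) ∪ (A₁ \ A₀) = (A₀ ∪ A₁) ∪ (B₀ ∪ B₁) := by
    rw [Finset.union_assoc A₀, hBu, Finset.union_right_comm, hAu]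
  have key3 : ∀ T : Finset V, (∀ t ∈ T, t ∉ (A₀ ∪ A₁) ∪ (B₀ ∪ B₁)) → ∃ ρ L : (V → S) → ℝ,
      Law H side A μ c ((A₀ ∪ A₁) ∪ (B₀ ∪ B₁) ∪ T) ρ L ∧
      IsFan side A μ c ((A₀ ∪ A₁) ∪ (B₀ ∪ B₁) ∪ T) ρ A₀ (B₀ ∪ B₁) (tr H A₀) ∧
      IsFan side A μ c ((A₀ ∪ A₁) ∪ (B₀ ∪ B₁) ∪ T) ρ B₀ (A₀ ∪ A₁) (tr H B₀) := by
    intro T
    induction T using Finset.induction_on with
    | empty =>
      intro _
      have h1 := key2 _ (Finset.Subset.refl _)
      rw [hU, hBu, hAu] at h1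
      rw [Finset.union_empty]
      exact h1
    | insert t T htT ih =>
      intro hT
      obtain ⟨ρ, L, hl, hf, hg⟩ := ih fun x hx => hT x (mem_insert_of_mem hx)
      have ht := hT t (mem_insert_self _ _)
      have htU : t ∉ (A₀ ∪ A₁) ∪ (B₀ ∪ B₁) ∪ T := by
        rw [mem_union, not_or]
        exact ⟨ht, htT⟩
      simp only [mem_union, not_or] at ht
      rw [Finset.union_insert]
      let R : Finset V := univ.filter fun u => H.Adj t u
      have hR : ∀ x ∈ (A₀ ∪ A₁) ∪ (B₀ ∪ B₁) ∪ T, H.Adj t x ↔ x ∈ R := fun x _ => by simp [R]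
      by_cases hts : side t = side a
      · obtain ⟨r, x, hr, hx, hdom⟩ := hw t hts ht.1.1 ht.1.2
        exact fans_late h hs hl hf hg htU (R := R) (r := r) (a := x)
          (fun u hu => mem_union.2 (hdom u (mem_filter.1 hu).2).1) hR
          (mem_filter.2 ⟨mem_univ _, hr⟩)
          (fun u hu => mem_tr.2 ⟨hx, (hdom u (mem_filter.1 hu).2).2.1⟩)
          (fun u hu x' hx' => mem_tr.2 ⟨(mem_tr.1 hx').1,
            (hdom u (mem_filter.1 hu).2).2.2 x' (mem_tr.1 hx').1 (mem_tr.1 hx').2⟩)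
      · have hts' : side t = side b := bool_eq hts hab
        obtain ⟨r, x, hr, hx, hdom⟩ := hv t hts' ht.2.1 ht.2.2
        obtain ⟨ρ', L', h1, h2, h3⟩ := fans_late h hs hl hg hf htU (R := R) (r := r) (a := x)
          (fun u hu => mem_union.2 (hdom u (mem_filter.1 hu).2).1) hR
          (mem_filter.2 ⟨mem_univ _, hr⟩)
          (fun u hu => mem_tr.2 ⟨hx, (hdom u (mem_filter.1 hu).2).2.1⟩)
          (fun u hu x' hx' => mem_tr.2 ⟨(mem_tr.1 hx').1,
            (hdom u (mem_filter.1 hu).2).2.2 x' (mem_tr.1 hx').1 (mem_tr.1 hx').2⟩)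
        exact ⟨ρ', L', h1, h3, h2⟩
  obtain ⟨ρ, L, hl, -, -⟩ := key3 (univ \ ((A₀ ∪ A₁) ∪ (B₀ ∪ B₁))) fun t ht =>
    (mem_sdiff.1 ht).2
  rw [Finset.union_sdiff_of_subset (Finset.subset_univ _)] at hl
  exact ⟨ρ, L, hl⟩

end Mix

/-- graphs with two adjacent hubs -/
theorem gsid_of_double_hub {V : Type} [Fintype V] [DecidableEq V] {H : SimpleGraph V}
    {side : V → Bool} (hs : ∀ u v, H.Adj u v → side u ≠ side v) {a b : V}
    {A₀ B₀ A₁ B₁ : Finset V} (ha : a ∈ A₀) (hb : b ∈ B₀) (hbA : ∀ x ∈ A₀, H.Adj b x)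
    (haB : ∀ y ∈ B₀, H.Adj a y) (h00 : ∀ x ∈ A₀, ∀ y ∈ B₀, H.Adj x y → x = a ∨ y = b)
    (hA₁ : ∀ x ∈ A₁, ∃ y ∈ B₀, H.Adj x y) (hB₁ : ∀ y ∈ B₁, ∃ x ∈ A₀, H.Adj y x)
    (h11 : ∀ x ∈ A₁, ∀ y ∈ B₁, ¬ H.Adj x y)
    (hw : ∀ w, side w = side a → w ∉ A₀ → w ∉ A₁ → ∃ r x, H.Adj w r ∧ x ∈ A₀ ∧
      ∀ u, H.Adj w u → (u ∈ B₀ ∨ u ∈ B₁) ∧ H.Adj u x ∧ ∀ x' ∈ A₀, H.Adj u x' → H.Adj r x')
    (hv : ∀ v, side v = side b → v ∉ B₀ → v ∉ B₁ → ∃ r y, H.Adj v r ∧ y ∈ B₀ ∧
      ∀ u, H.Adj v u → (u ∈ A₀ ∨ u ∈ A₁) ∧ H.Adj u y ∧ ∀ y' ∈ B₀, H.Adj u y' → H.Adj r y') :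
    GSid H side := by
  have hab := hs _ _ (hbA a ha)
  refine gsid_of_rev H side hs ?_ ?_
  · intro v
    by_cases h1 : v ∈ A₀
    · exact ⟨b, (hbA v h1).symm⟩
    · by_cases h2 : v ∈ B₀
      · exact ⟨a, (haB v h2).symm⟩
      · by_cases h3 : v ∈ A₁
        · obtain ⟨y, -, hy⟩ := hA₁ v h3
          exact ⟨y, hy⟩
        · by_cases h4 : v ∈ B₁
          · obtain ⟨x, -, hx⟩ := hB₁ v h4
            exact ⟨x, hx⟩
          · by_cases h5 : side v = side a
            · obtain ⟨r, -, hr, -⟩ := hw v h5 h1 h3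
              exact ⟨r, hr⟩
            · have h6 : side v = side b := bool_eq h5 hab
              obtain ⟨r, -, hr, -⟩ := hv v h6 h2 h4
              exact ⟨r, hr⟩
  · intro S _ _ _ A μ c h
    obtain ⟨ρ, L, hl⟩ := dhub_law (side := side) h hs ha hb hbA haB h00 hA₁ hB₁ h11 hw hv
    exact hl.sum_wt_ge h

end Vale.Agent.P050.Books
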