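import Vale.Agent.P050.R4.H422.FanDef
import Vale.Agent.P050.R4.H422.Mix

/-!
# P050: the laws of fans
-/

set_option linter.unusedSectionVars false

namespace Vale.Agent.P050.Books

open Finset Vale.Agent.P050.Lev Vale.Agent.P050.Ears

section FanLaw

variable {V S : Type} [Fintype V] [DecidableEq V] [Fintype S]
  {side : V → Bool} {A : Matrix S S ℝ} {μ : S → ℝ} {c : S → Bool}

/-- the density of a fan -/
noncomputable def fdens (H : SimpleGraph V) (A : Matrix S S ℝ) (μ : S → ℝ) (X E : Finset V)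
    (z : V → S) : ℝ := hQ A μ X z * ∏ u ∈ E, rr A μ (tr H X u) u z

/-- In the law with density `ρ` the states of `X` and `E` have the law of a fan. -/
structure FanL (H : SimpleGraph V) (side : V → Bool) (A : Matrix S S ℝ) (μ : S → ℝ)
    (c : S → Bool) (U : Finset V) (ρ : (V → S) → ℝ) (X E : Finset V) : Prop where
  ne : X.Nonempty
  sub : X ∪ E ⊆ U
  sx : ∀ i ∈ X, ∀ j ∈ X, side i = side j
  tn : ∀ u ∈ E, (tr H X u).Nonempty
  law : ∀ f : (V → S) → ℝ, DepOn (X ∪ E) f →
    EM side μ c (fun z => ρ z * f z) = EM side μ c (fun z => fdens H A μ X E z * f z)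

theorem tr_sub (H : SimpleGraph V) (X : Finset V) (u : V) : tr H X u ⊆ X :=
  fun _ hi => (mem_tr.1 hi).1

theorem tr_eq {H : SimpleGraph V} {X X' : Finset V} {u : V} (hX : X' ⊆ X)
    (hu : ∀ x ∈ X, H.Adj u x → x ∈ X') : tr H X u = tr H X' u := by
  ext i
  rw [mem_tr, mem_tr]
  exact ⟨fun hi => ⟨hu i hi.1 hi.2, hi.2⟩, fun hi => ⟨hX hi.1, hi.2⟩⟩

theorem tr_full {H : SimpleGraph V} {X : Finset V} {u : V} (hu : ∀ x ∈ X, H.Adj u x) :
    tr H X u = X := by
  ext i
  rw [mem_tr]
  exact ⟨fun hi => hi.1, fun hi => ⟨hi, hu i hi⟩⟩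

theorem depOn_rr' {X : Finset V} {R : Finset V} {u : V} (hR : R ⊆ X) {W : Finset V}
    (hW : insert u X ⊆ W) : DepOn W (rr A μ R u : (V → S) → ℝ) := (depOn_rr hR).mono hW

theorem depOn_prodrr (H : SimpleGraph V) (X E : Finset V) {W : Finset V} (hX : X ⊆ W)
    (hE : E ⊆ W) : DepOn W (fun z : V → S => ∏ u ∈ E, rr A μ (tr H X u) u z) := by
  intro z z' hz
  refine Finset.prod_congr rfl fun u hu => ?_
  exact depOn_rr' (tr_sub H X u) (Finset.insert_subset (hE hu) hX) z z' hz

theorem depOn_fdens (H : SimpleGraph V) (X E : Finset V) :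
    DepOn (X ∪ E) (fdens H A μ X E : (V → S) → ℝ) := by
  have h1 := depOn_prodrr (A := A) (μ := μ) H X E (W := X ∪ E) Finset.subset_union_left
    Finset.subset_union_right
  have h2 := (depOn_hQ (A := A) (μ := μ) X).mono (Finset.subset_union_left (s₂ := E))
  exact h2.mul h1

theorem hQ_pos_mono (h : Rev A μ c) {X R : Finset V} (hR : R ⊆ X) {z : V → S}
    (hz : hQ A μ X z ≠ 0) : 0 < hQ A μ R z := by
  unfold hQ at hz
  obtain ⟨x, -, hx⟩ := Finset.exists_ne_zero_of_sum_ne_zero hz
  exact Books.hQ_pos h (x := x) fun i hi =>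
    (Finset.prod_ne_zero_iff.1 (right_ne_zero_of_mul hx)) i (hR hi)

theorem FanL.sd {H : SimpleGraph V} (hs : ∀ u v, H.Adj u v → side u ≠ side v) {U : Finset V}
    {ρ : (V → S) → ℝ} {X E : Finset V} (hf : FanL H side A μ c U ρ X E) :
    ∀ u ∈ E, ∀ i ∈ X, side i ≠ side u := by
  intro u hu i hi
  obtain ⟨x, hx⟩ := hf.tn u hu
  obtain ⟨hxX, hux⟩ := mem_tr.1 hx
  rw [hf.sx i hi x hxX]
  exact (hs _ _ hux).symm

theorem FanL.notMem {H : SimpleGraph V} (hs : ∀ u v, H.Adj u v → side u ≠ side v)
    {U : Finset V} {ρ : (V → S) → ℝ} {X E : Finset V} (hf : FanL H side A μ c U ρ X E) :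
    ∀ u ∈ E, u ∉ X := fun u hu hm => hf.sd hs u hu u hm rfl

/-- one vertex of `E` may be dropped -/
theorem FanL.dropE1 (h : Rev A μ c) {H : SimpleGraph V}
    (hs : ∀ u v, H.Adj u v → side u ≠ side v) {U : Finset V} {ρ : (V → S) → ℝ} {X E : Finset V}
    {u : V} (hu : u ∉ E) (hf : FanL H side A μ c U ρ X (insert u E)) :
    FanL H side A μ c U ρ X E where
  ne := hf.ne
  sub := (Finset.union_subset_union_right (Finset.subset_insert _ _)).trans hf.sub
  sx := hf.sx
  tn := fun w hw => hf.tn w (mem_insert_of_mem hw)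
  law := by
    intro f hfd
    have huX : u ∉ X := hf.notMem hs u (mem_insert_self _ _)
    have huW : u ∉ X ∪ E := by
      rw [mem_union, not_or]
      exact ⟨huX, hu⟩
    rw [hf.law f (hfd.mono (Finset.union_subset_union_right (Finset.subset_insert _ _)))]
    have e1 : EM side μ c (fun z => fdens H A μ X (insert u E) z * f z) =
        EM side μ c (fun z => (fdens H A μ X E z * f z) * rr A μ (tr H X u) u z) := by
      refine EM_congr fun z _ => ?_
      unfold fdens
      rw [Finset.prod_insert hu]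
      ring
    obtain ⟨i, hi⟩ := hf.tn u (mem_insert_self _ _)
    have hsd := hf.sd hs u (mem_insert_self _ _) i (mem_tr.1 hi).1
    rw [e1, EM_int (side := side) h huW ((depOn_fdens H X E).mul hfd)
      (r := rr A μ (tr H X u) u) (g := fun _ => 1)]
    · exact EM_congr fun z _ => mul_one _
    · intro z hz h0
      refine rr_sum h huW ((tr_sub H X u).trans Finset.subset_union_left) hi hsd hz ?_
      have h1 : fdens H A μ X E z ≠ 0 := left_ne_zero_of_mul h0
      unfold fdens at h1
      exact hQ_pos_mono h (tr_sub H X u) (left_ne_zero_of_mul h1)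

theorem mm_kk (h : Rev A μ c) {j : V} {y : S} (hy : c y ≠ side j) :
    ∑ x, mm side μ c j x * kk A μ x y = 1 := by
  have h1 := hQ_eq (side := side) h (Q := {j}) (z := fun _ => y) (v := j) (i := j)
    (mem_singleton_self j) hy
  rw [hQ_singleton h] at h1
  rw [← h1]
  refine Finset.sum_congr rfl fun x _ => ?_
  rw [Finset.prod_singleton, kk_symm h]

theorem hQ_int (h : Rev A μ c) {X : Finset V} {i j : V} (hj : j ∉ X) (hi : i ∈ X)
    (hij : side i = side j) {z : V → S} (hz : (∏ v, mm side μ c v (z v)) ≠ 0) :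
    ∑ x, mm side μ c j x * hQ A μ (insert j X) (Function.update z j x) = hQ A μ X z := by
  have e1 : ∀ x, hQ A μ (insert j X) (Function.update z j x) =
      ∑ y, μ y * (kk A μ x y * ∏ k ∈ X, kk A μ (z k) y) := by
    intro x
    unfold hQ
    refine Finset.sum_congr rfl fun y _ => ?_
    rw [Finset.prod_insert hj, Function.update_self]
    congr 2
    refine Finset.prod_congr rfl fun k hk => ?_
    rw [Function.update_of_ne]
    rintro rfl
    exact hj hk
  simp only [e1, Finset.mul_sum]
  rw [Finset.sum_comm]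
  unfold hQ
  refine Finset.sum_congr rfl fun y _ => ?_
  have e2 : ∑ x, mm side μ c j x * (μ y * (kk A μ x y * ∏ k ∈ X, kk A μ (z k) y)) =
      (μ y * ∏ k ∈ X, kk A μ (z k) y) * ∑ x, mm side μ c j x * kk A μ x y := by
    rw [Finset.mul_sum]
    exact Finset.sum_congr rfl fun x _ => by ring
  rw [e2]
  by_cases hy : c y = side j
  · have : ∏ k ∈ X, kk A μ (z k) y = 0 :=
      Finset.prod_eq_zero hi (kk_alt h (by rw [side_of_M hz i, hij, hy]))
    rw [this]
    ring
  · rw [mm_kk h hy, mul_one]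

/-- one vertex of `X` may be dropped -/
theorem FanL.dropX1 (h : Rev A μ c) {H : SimpleGraph V}
    (hs : ∀ u v, H.Adj u v → side u ≠ side v) {U : Finset V} {ρ : (V → S) → ℝ} {X E : Finset V}
    {j : V} (hj : j ∉ X) (hX : X.Nonempty) (hE : ∀ u ∈ E, ¬ H.Adj u j)
    (hf : FanL H side A μ c U ρ (insert j X) E) : FanL H side A μ c U ρ X E := by
  have htr : ∀ u ∈ E, tr H (insert j X) u = tr H X u := fun u hu =>
    tr_eq (Finset.subset_insert _ _) fun x hx hux => by
      rcases mem_insert.1 hx with rfl | hx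
      · exact absurd hux (hE u hu)
      · exact hx
  have hsub : X ∪ E ⊆ insert j X ∪ E :=
    Finset.union_subset_union_left (Finset.subset_insert _ _)
  refine ⟨hX, hsub.trans hf.sub, fun i hi k hk => hf.sx i (mem_insert_of_mem hi) k
    (mem_insert_of_mem hk), fun u hu => by rw [← htr u hu]; exact hf.tn u hu, ?_⟩
  intro f hfd
  have hjW : j ∉ X ∪ E := by
    rw [mem_union, not_or]
    exact ⟨hj, fun hm => hf.notMem hs j hm (mem_insert_self _ _)⟩
  obtain ⟨i, hi⟩ := hX
  rw [hf.law f (hfd.mono hsub)]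
  have e1 : EM side μ c (fun z => fdens H A μ (insert j X) E z * f z) =
      EM side μ c (fun z => ((∏ u ∈ E, rr A μ (tr H X u) u z) * f z) *
        hQ A μ (insert j X) z) := by
    refine EM_congr fun z _ => ?_
    unfold fdens
    rw [Finset.prod_congr rfl fun u hu => by rw [htr u hu]]
    ring
  rw [e1, EM_int (side := side) h hjW ((depOn_prodrr H X E Finset.subset_union_left
    Finset.subset_union_right).mul hfd) (r := hQ A μ (insert j X)) (g := hQ A μ X)]
  · refine EM_congr fun z _ => ?_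
    unfold fdens
    ring
  · intro z hz _
    exact hQ_int h hj hi (hf.sx i (mem_insert_of_mem hi) j (mem_insert_self _ _)) hz

/-- the density of a fan with a hub -/
theorem fdens_hub (h : Rev A μ c) {H : SimpleGraph V} {X E : Finset V} {u : V} (hu : u ∉ E)
    (hadj : ∀ x ∈ X, H.Adj u x) (z : V → S) :
    fdens H A μ X (insert u E) z =
      (∏ i ∈ X, kk A μ (z i) (z u)) * ∏ w ∈ E, rr A μ (tr H X w) w z := by
  unfold fdens
  rw [Finset.prod_insert hu, tr_full hadj, ← mul_assoc]
  congr 1
  unfold rr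
  by_cases h0 : hQ A μ X z = 0
  · have h1 : ∏ i ∈ X, kk A μ (z i) (z u) = 0 := by
      by_contra hcon
      exact (Books.hQ_pos h (x := z u) fun i hi =>
        (Finset.prod_ne_zero_iff.1 hcon) i hi).ne' h0
    rw [h0, h1]
    ring
  · field_simp

/-- one vertex of `X` may be dropped in a fan with a hub -/
theorem FanL.dropHub1 (h : Rev A μ c) {H : SimpleGraph V}
    (hs : ∀ u v, H.Adj u v → side u ≠ side v) {U : Finset V} {ρ : (V → S) → ℝ} {X E : Finset V}
    {j u : V} (hj : j ∉ X) (hX : X.Nonempty) (hu : u ∉ E) (hadj : ∀ x ∈ insert j X, H.Adj u x)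
    (hE : ∀ w ∈ E, ¬ H.Adj w j) (hf : FanL H side A μ c U ρ (insert j X) (insert u E)) :
    FanL H side A μ c U ρ X (insert u E) := by
  have htr : ∀ w ∈ E, tr H (insert j X) w = tr H X w := fun w hw =>
    tr_eq (Finset.subset_insert _ _) fun x hx hux => by
      rcases mem_insert.1 hx with rfl | hx
      · exact absurd hux (hE w hw)
      · exact hx
  have hadj' : ∀ x ∈ X, H.Adj u x := fun x hx => hadj x (mem_insert_of_mem hx)
  have hsub : X ∪ insert u E ⊆ insert j X ∪ insert u E :=
    Finset.union_subset_union_left (Finset.subset_insert _ _)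
  refine ⟨hX, hsub.trans hf.sub, fun i hi k hk => hf.sx i (mem_insert_of_mem hi) k
    (mem_insert_of_mem hk), fun w hw => ?_, ?_⟩
  · rcases mem_insert.1 hw with rfl | hw
    · rw [tr_full hadj']
      exact hX
    · rw [← htr w hw]
      exact hf.tn w (mem_insert_of_mem hw)
  · intro f hfd
    have hjW : j ∉ X ∪ insert u E := by
      rw [mem_union, not_or]
      exact ⟨hj, fun hm => hf.notMem hs j hm (mem_insert_self _ _)⟩
    rw [hf.law f (hfd.mono hsub)]
    have e1 : EM side μ c (fun z => fdens H A μ (insert j X) (insert u E) z * f z) =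
        EM side μ c (fun z => (fdens H A μ X (insert u E) z * f z) *
          kk A μ (z j) (z u)) := by
      refine EM_congr fun z _ => ?_
      have e3 : ∏ w ∈ E, rr A μ (tr H (insert j X) w) w z = ∏ w ∈ E, rr A μ (tr H X w) w z :=
        Finset.prod_congr rfl fun w hw => by rw [htr w hw]
      rw [fdens_hub h hu hadj, fdens_hub h hu hadj', e3, Finset.prod_insert hj]
      ring
    rw [e1, EM_int (side := side) h hjW ((depOn_fdens H X (insert u E)).mul hfd)
      (r := fun z => kk A μ (z j) (z u)) (g := fun _ => 1)]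
    · exact EM_congr fun z _ => mul_one _
    · intro z hz _
      have hju : u ≠ j := by
        rintro rfl
        exact hjW (mem_union_right _ (mem_insert_self _ _))
      have e2 : ∀ x, kk A μ (Function.update z j x j) (Function.update z j x u) =
          kk A μ x (z u) := by
        intro x
        rw [Function.update_self, Function.update_of_ne hju]
      simp only [e2]
      refine mm_kk h ?_
      rw [side_of_M hz u]
      exact (hf.sd hs u (mem_insert_self _ _) j (mem_insert_self _ _)).symm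

theorem FanL.dropE (h : Rev A μ c) {H : SimpleGraph V}
    (hs : ∀ u v, H.Adj u v → side u ≠ side v) {U : Finset V} {ρ : (V → S) → ℝ}
    {X E E' : Finset V} (hf : FanL H side A μ c U ρ X E) (hE : E' ⊆ E) :
    FanL H side A μ c U ρ X E' := by
  have key : ∀ D : Finset V, Disjoint E' D → FanL H side A μ c U ρ X (E' ∪ D) →
      FanL H side A μ c U ρ X E' := by
    intro D
    induction D using Finset.induction_on with
    | empty => intro _ hD; rwa [union_empty] at hD
    | insert d D hd ih =>
      intro hdis hD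
      rw [Finset.disjoint_insert_right] at hdis
      rw [Finset.union_insert] at hD
      refine ih hdis.2 (FanL.dropE1 h hs ?_ hD)
      rw [mem_union, not_or]
      exact ⟨hdis.1, hd⟩
  refine key (E \ E') Finset.disjoint_sdiff ?_
  rwa [Finset.union_sdiff_of_subset hE]

theorem FanL.dropX (h : Rev A μ c) {H : SimpleGraph V}
    (hs : ∀ u v, H.Adj u v → side u ≠ side v) {U : Finset V} {ρ : (V → S) → ℝ}
    {X X' E : Finset V} (hf : FanL H side A μ c U ρ X E) (hX : X' ⊆ X) (hX' : X'.Nonempty)
    (hE : ∀ u ∈ E, ∀ x ∈ X, H.Adj u x → x ∈ X') :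
    FanL H side A μ c U ρ X' E := by
  have key : ∀ D : Finset V, Disjoint X' D → (∀ u ∈ E, ∀ x ∈ D, ¬ H.Adj u x) →
      FanL H side A μ c U ρ (X' ∪ D) E → FanL H side A μ c U ρ X' E := by
    intro D
    induction D using Finset.induction_on with
    | empty => intro _ _ hD; rwa [union_empty] at hD
    | insert d D hd ih =>
      intro hdis hadj hD
      rw [Finset.disjoint_insert_right] at hdis
      rw [Finset.union_insert] at hD
      refine ih hdis.2 (fun u hu x hx => hadj u hu x (mem_insert_of_mem hx))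
        (FanL.dropX1 h hs ?_ (hX'.mono Finset.subset_union_left)
          (fun u hu => hadj u hu d (mem_insert_self _ _)) hD)
      rw [mem_union, not_or]
      exact ⟨hdis.1, hd⟩
  refine key (X \ X') Finset.disjoint_sdiff (fun u hu x hx hux => ?_) ?_
  · obtain ⟨h1, h2⟩ := mem_sdiff.1 hx
    exact h2 (hE u hu x h1 hux)
  · rwa [Finset.union_sdiff_of_subset hX]

theorem FanL.dropHub (h : Rev A μ c) {H : SimpleGraph V}
    (hs : ∀ u v, H.Adj u v → side u ≠ side v) {U : Finset V} {ρ : (V → S) → ℝ}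
    {X X' E : Finset V} {u : V} (hu : u ∉ E) (hf : FanL H side A μ c U ρ X (insert u E))
    (hadj : ∀ x ∈ X, H.Adj u x) (hX : X' ⊆ X) (hX' : X'.Nonempty)
    (hE : ∀ w ∈ E, ∀ x ∈ X, H.Adj w x → x ∈ X') :
    FanL H side A μ c U ρ X' (insert u E) := by
  have key : ∀ D : Finset V, Disjoint X' D → (∀ w ∈ E, ∀ x ∈ D, ¬ H.Adj w x) →
      (∀ x ∈ X' ∪ D, H.Adj u x) → FanL H side A μ c U ρ (X' ∪ D) (insert u E) →
      FanL H side A μ c U ρ X' (insert u E) := by
    intro D
    induction D using Finset.induction_on with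
    | empty => intro _ _ _ hD; rwa [union_empty] at hD
    | insert d D hd ih =>
      intro hdis hna ha hD
      rw [Finset.disjoint_insert_right] at hdis
      rw [Finset.union_insert] at hD ha
      refine ih hdis.2 (fun w hw x hx => hna w hw x (mem_insert_of_mem hx))
        (fun x hx => ha x (mem_insert_of_mem hx))
        (FanL.dropHub1 h hs ?_ (hX'.mono Finset.subset_union_left) hu ha
          (fun w hw => hna w hw d (mem_insert_self _ _)) hD)
      rw [mem_union, not_or]
      exact ⟨hdis.1, hd⟩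
  refine key (X \ X') Finset.disjoint_sdiff (fun w hw x hx hux => ?_) ?_ ?_
  · obtain ⟨h1, h2⟩ := mem_sdiff.1 hx
    exact h2 (hE w hw x h1 hux)
  · rwa [Finset.union_sdiff_of_subset hX]
  · rwa [Finset.union_sdiff_of_subset hX]

theorem fdens_turn (h : Rev A μ c) {H : SimpleGraph V} {u : V} {E : Finset V}
    (hE : ∀ w ∈ E, H.Adj w u) (z : V → S) : fdens H A μ {u} E z = fdens H A μ E {u} z := by
  have e1 : fdens H A μ E {u} z = ∏ i ∈ E, kk A μ (z i) (z u) := by
    have e0 : ({u} : Finset V) = insert u ∅ := by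
      ext x
      simp
    rw [e0, fdens_hub h (Finset.notMem_empty u) (fun x hx => (hE x hx).symm),
      Finset.prod_empty, mul_one]
  rw [e1]
  unfold fdens
  rw [hQ_singleton h, one_mul]
  refine Finset.prod_congr rfl fun w hw => ?_
  rw [tr_full (fun x hx => by rw [mem_singleton.1 hx]; exact hE w hw), rr_singleton h,
    kk_symm h]

theorem FanL.turn (h : Rev A μ c) {H : SimpleGraph V}
    (hs : ∀ u v, H.Adj u v → side u ≠ side v) {U : Finset V} {ρ : (V → S) → ℝ} {u : V}
    {E : Finset V} (hf : FanL H side A μ c U ρ {u} E) (hE : E.Nonempty) :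
    FanL H side A μ c U ρ E {u} := by
  have hadj : ∀ w ∈ E, H.Adj w u := by
    intro w hw
    obtain ⟨x, hx⟩ := hf.tn w hw
    obtain ⟨h1, h2⟩ := mem_tr.1 hx
    rwa [mem_singleton.1 h1] at h2
  refine ⟨hE, by rw [Finset.union_comm]; exact hf.sub, fun i hi j hj =>
    bool_eq (hs _ _ (hadj i hi)) (hs _ _ (hadj j hj)), fun w hw => ?_, ?_⟩
  · obtain ⟨i, hi⟩ := hE
    rw [mem_singleton.1 hw]
    exact ⟨i, mem_tr.2 ⟨hi, (hadj i hi).symm⟩⟩
  · intro f hfd
    rw [Finset.union_comm] at hfd
    rw [hf.law f hfd]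
    exact EM_congr fun z _ => by rw [fdens_turn h hadj]

theorem FanL.turn' (h : Rev A μ c) {H : SimpleGraph V}
    (hs : ∀ u v, H.Adj u v → side u ≠ side v) {U : Finset V} {ρ : (V → S) → ℝ} {u : V}
    {X : Finset V} (hf : FanL H side A μ c U ρ X {u}) (hX : ∀ x ∈ X, H.Adj u x) :
    FanL H side A μ c U ρ {u} X := by
  refine ⟨singleton_nonempty u, by rw [Finset.union_comm]; exact hf.sub, fun i hi j hj => by
    rw [mem_singleton.1 hi, mem_singleton.1 hj], fun w hw =>
    ⟨u, mem_tr.2 ⟨mem_singleton_self u, (hX w hw).symm⟩⟩, ?_⟩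
  intro f hfd
  rw [Finset.union_comm] at hfd
  rw [hf.law f hfd]
  exact EM_congr fun z _ => by rw [fdens_turn h fun w hw => (hX w hw).symm]

/-- all derived fans are fans -/
theorem fanL_of_der (h : Rev A μ c) {H : SimpleGraph V}
    (hs : ∀ u v, H.Adj u v → side u ≠ side v) {U : Finset V} {ρ : (V → S) → ℝ}
    {F : Set (Finset V × Finset V)} (hF : ∀ p ∈ F, FanL H side A μ c U ρ p.1 p.2)
    {X E : Finset V} (hd : FDer H F X E) : FanL H side A μ c U ρ X E := by
  induction hd with
  | base h1 => exact hF _ h1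
  | sub _ h1 h2 h3 h4 ih => exact (ih.dropE h hs h3).dropX h hs h1 h2 h4
  | @hub X X' E E' u _ h1 h2 h3 h4 h5 h6 ih =>
    have hX' : X' ⊆ tr H X u := fun x hx => mem_tr.2 ⟨h1 hx, h6 x hx⟩
    have i1 : FanL H side A μ c U ρ (tr H X u) (insert u E') := by
      refine (ih.dropE h hs (Finset.insert_subset h5 h3)).dropX h hs (tr_sub H X u)
        (h2.mono hX') ?_
      intro w hw x hx hwx
      rcases mem_insert.1 hw with rfl | hw
      · exact mem_tr.2 ⟨hx, hwx⟩
      · exact hX' (h4 w hw x hx hwx)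
    have e1 : insert u E' = insert u (E'.erase u) := by
      ext x
      simp only [mem_insert, mem_erase]
      tauto
    rw [e1] at i1 ⊢
    exact i1.dropHub h hs (Finset.notMem_erase _ _) (fun x hx => (mem_tr.1 hx).2) hX' h2
      fun w hw x hx hwx => h4 w (Finset.mem_of_mem_erase hw) x (mem_tr.1 hx).1 hwx
  | turn _ h1 ih => exact ih.turn h hs h1
  | turn' _ h1 ih => exact ih.turn' h hs h1

end FanLaw

end Vale.Agent.P050.Books
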