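import Vale.Agent.P050.R4.H422.FanLaw
import Vale.Agent.P050.R2.H545.HubC3

/-!
# P050: the laws of fans, new vertices, entropies
-/

set_option linter.unusedSectionVars false

namespace Vale.Agent.P050.Books

open Finset Vale.Agent.P050.Lev Vale.Agent.P050.Ears

section FanLaw2

variable {V S : Type} [Fintype V] [DecidableEq V] [Fintype S]
  {side : V → Bool} {A : Matrix S S ℝ} {μ : S → ℝ} {c : S → Bool}

/-- old fans are kept -/
theorem FanL.keep (h : Rev A μ c) {H : SimpleGraph V} {U R : Finset V} {v i : V}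
    {ρ : (V → S) → ℝ} (hdep : DepOn U ρ) (hv : v ∉ U) (hR : R ⊆ U) (hi : i ∈ R)
    (hsd : side i ≠ side v)
    (hp : ∀ z : V → S, (∏ v, mm side μ c v (z v)) ≠ 0 → ρ z ≠ 0 → 0 < hQ A μ R z)
    {X E : Finset V} (hf : FanL H side A μ c U ρ X E) :
    FanL H side A μ c (insert v U) (fun z => ρ z * rr A μ R v z) X E where
  ne := hf.ne
  sub := hf.sub.trans (Finset.subset_insert _ _)
  sx := hf.sx
  tn := hf.tn
  law := fun f hfd => by
    rw [persist h hdep hv hR hi hsd hp (hfd.mono hf.sub)]
    exact hf.law f hfd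

/-- the law of the old vertices and the new vertex -/
theorem law_push (h : Rev A μ c) {U W R : Finset V} {v : V} {ρ D : (V → S) → ℝ}
    (hdep : DepOn U ρ) (hv : v ∉ U) (hW : W ⊆ U) (hRW : R ⊆ W) (hD : DepOn W D)
    (hlaw : ∀ f : (V → S) → ℝ, DepOn W f →
      EM side μ c (fun z => ρ z * f z) = EM side μ c (fun z => D z * f z))
    {f : (V → S) → ℝ} (hf : DepOn (insert v W) f) :
    EM side μ c (fun z => ρ z * rr A μ R v z * f z) =
      EM side μ c (fun z => D z * rr A μ R v z * f z) := by
  have hvW : v ∉ W := fun hm => hv (hW hm)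
  let r : (V → S) → ℝ := fun z => rr A μ R v z * f z
  have hr : DepOn (insert v W) r := (depOn_rr hRW).mul hf
  let g : (V → S) → ℝ := fun z => ∑ x, mm side μ c v x * r (Function.update z v x)
  have hg : DepOn W g := by
    intro z z' hz
    refine Finset.sum_congr rfl fun x _ => ?_
    congr 1
    refine hr _ _ fun u hu => ?_
    by_cases huv : u = v
    · rw [huv, Function.update_self, Function.update_self]
    · rw [Function.update_of_ne huv, Function.update_of_ne huv]
      exact hz u ((mem_insert.1 hu).resolve_left huv)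
  have e1 : EM side μ c (fun z => ρ z * rr A μ R v z * f z) =
      EM side μ c (fun z => ρ z * r z) := EM_congr fun z _ => mul_assoc _ _ _
  have e2 : EM side μ c (fun z => ρ z * r z) = EM side μ c (fun z => ρ z * g z) :=
    EM_push h hv hdep r
  have e3 : EM side μ c (fun z => D z * r z) = EM side μ c (fun z => D z * g z) :=
    EM_push h hvW hD r
  rw [e1, e2, hlaw g hg, ← e3]
  exact EM_congr fun z _ => (mul_assoc _ _ _).symm

/-- an early vertex is a new vertex of `E` -/
theorem FanL.addE (h : Rev A μ c) {H : SimpleGraph V}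
    (hs : ∀ u v, H.Adj u v → side u ≠ side v) {U R : Finset V} {v : V} {ρ : (V → S) → ℝ}
    (hdep : DepOn U ρ) (hv : v ∉ U) (hRn : R.Nonempty) (hR : ∀ x ∈ U, H.Adj v x ↔ x ∈ R)
    {X E : Finset V} (hf : FanL H side A μ c U ρ X E) (hRX : R ⊆ X) :
    FanL H side A μ c (insert v U) (fun z => ρ z * rr A μ R v z) X (insert v E) := by
  have hXU : X ⊆ U := Finset.subset_union_left.trans hf.sub
  have htr : tr H X v = R := by
    ext i
    rw [mem_tr]
    exact ⟨fun hi => (hR i (hXU hi.1)).1 hi.2, fun hi => ⟨hRX hi, (hR i (hXU (hRX hi))).2 hi⟩⟩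
  have hvE : v ∉ E := fun hm => hv (hf.sub (mem_union_right _ hm))
  refine ⟨hf.ne, ?_, hf.sx, fun u hu => ?_, ?_⟩
  · rw [Finset.union_insert]
    exact Finset.insert_subset_insert _ hf.sub
  · rcases mem_insert.1 hu with rfl | hu
    · rw [htr]
      exact hRn
    · exact hf.tn u hu
  · intro f hfd
    rw [Finset.union_insert] at hfd
    rw [law_push h hdep hv hf.sub (hRX.trans Finset.subset_union_left) (depOn_fdens H X E)
      hf.law hfd]
    refine EM_congr fun z _ => ?_
    have e1 : fdens H A μ X (insert v E) z = fdens H A μ X E z * rr A μ R v z := by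
      unfold fdens
      rw [Finset.prod_insert hvE, htr]
      ring
    rw [e1]

/-- a pendant vertex at the hub is a new vertex of `X` -/
theorem FanL.addX (h : Rev A μ c) {H : SimpleGraph V}
    (hs : ∀ u v, H.Adj u v → side u ≠ side v) {U : Finset V} {u v : V} {ρ : (V → S) → ℝ}
    (hdep : DepOn U ρ) (hv : v ∉ U) (hR : ∀ x ∈ U, H.Adj v x ↔ x ∈ ({u} : Finset V))
    {X E : Finset V} (hf : FanL H side A μ c U ρ X E) (hu : u ∈ E)
    (hX : ∀ x ∈ X, H.Adj u x) :
    FanL H side A μ c (insert v U) (fun z => ρ z * rr A μ {u} v z) (insert v X) E := by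
  have hXU : X ⊆ U := Finset.subset_union_left.trans hf.sub
  have hEU : E ⊆ U := Finset.subset_union_right.trans hf.sub
  have huv : H.Adj v u := (hR u (hEU hu)).2 (mem_singleton_self u)
  have hvX : v ∉ X := fun hm => hv (hXU hm)
  have hsx : ∀ i ∈ X, side i = side v := fun i hi =>
    bool_eq (hf.sd hs u hu i hi) (hs _ _ huv)
  have htr : ∀ w ∈ E, w ≠ u → tr H (insert v X) w = tr H X w := fun w hw hwu =>
    tr_eq (Finset.subset_insert _ _) fun x hx hwx => by
      rcases mem_insert.1 hx with rfl | hx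
      · exact absurd (mem_singleton.1 ((hR w (hEU hw)).1 hwx.symm)) hwu
      · exact hx
  have hadj : ∀ x ∈ insert v X, H.Adj u x := by
    intro x hx
    rcases mem_insert.1 hx with rfl | hx
    · exact huv.symm
    · exact hX x hx
  refine ⟨⟨v, mem_insert_self _ _⟩, ?_, ?_, fun w hw => ?_, ?_⟩
  · rw [Finset.insert_union]
    exact Finset.insert_subset_insert _ hf.sub
  · intro i hi j hj
    have key : ∀ k ∈ insert v X, side k = side v := by
      intro k hk
      rcases mem_insert.1 hk with rfl | hk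
      · rfl
      · exact hsx k hk
    rw [key i hi, key j hj]
  · by_cases hwu : w = u
    · rw [hwu, tr_full hadj]
      exact ⟨v, mem_insert_self _ _⟩
    · rw [htr w hw hwu]
      exact hf.tn w hw
  · intro f hfd
    rw [Finset.insert_union] at hfd
    have hus : ({u} : Finset V) ⊆ X ∪ E :=
      Finset.singleton_subset_iff.2 (mem_union_right _ hu)
    rw [law_push h hdep hv hf.sub hus (depOn_fdens H X E) hf.law hfd]
    refine EM_congr fun z _ => ?_
    have e0 : insert u (E.erase u) = E := Finset.insert_erase hu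
    have e3 : ∏ w ∈ E.erase u, rr A μ (tr H (insert v X) w) w z =
        ∏ w ∈ E.erase u, rr A μ (tr H X w) w z :=
      Finset.prod_congr rfl fun w hw => by
        rw [htr w (Finset.mem_of_mem_erase hw) (Finset.ne_of_mem_erase hw)]
    have e1 : fdens H A μ (insert v X) E z = fdens H A μ X E z * rr A μ {u} v z := by
      rw [← e0, fdens_hub h (Finset.notMem_erase _ _) hadj,
        fdens_hub h (Finset.notMem_erase _ _) hX, e3, Finset.prod_insert hvX, rr_singleton h,
        kk_symm h (z v) (z u)]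
      ring
    rw [e1]

/-- positivity of the kernel in a fan -/
theorem FanL.kp (h : Rev A μ c) {H : SimpleGraph V} {U : Finset V} {ρ : (V → S) → ℝ}
    (hρ : ∀ z, 0 ≤ ρ z) {X E : Finset V} (hf : FanL H side A μ c U ρ X E) :
    ∀ z, (∏ v, mm side μ c v (z v)) ≠ 0 → ρ z ≠ 0 → ∀ u ∈ E, ∀ i ∈ tr H X u,
      0 < kk A μ (z i) (z u) := by
  intro z hz h0 u hu i hi
  have h1 := ne_of_law h hρ (depOn_fdens H X E) hf.law hz h0
  unfold fdens at h1
  have h2 := (Finset.prod_ne_zero_iff.1 (right_ne_zero_of_mul h1)) u hu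
  unfold rr at h2
  exact lt_of_le_of_ne (kk_nonneg h _ _)
    (Ne.symm ((Finset.prod_ne_zero_iff.1 (left_ne_zero_of_mul h2)) i hi))

theorem FanL.pos (h : Rev A μ c) {H : SimpleGraph V} {U : Finset V} {ρ : (V → S) → ℝ}
    (hρ : ∀ z, 0 ≤ ρ z) {X E : Finset V} (hf : FanL H side A μ c U ρ X E) {R : Finset V}
    (hR : R ⊆ X) :
    ∀ z, (∏ v, mm side μ c v (z v)) ≠ 0 → ρ z ≠ 0 → 0 < hQ A μ R z := by
  intro z hz h0
  have h1 := ne_of_law h hρ (depOn_fdens H X E) hf.law hz h0
  unfold fdens at h1
  exact hQ_pos_mono h hR (left_ne_zero_of_mul h1)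

/-- the law of independent neighbours of a hub -/
theorem FanL.starLaw (h : Rev A μ c) {H : SimpleGraph V}
    (hs : ∀ u v, H.Adj u v → side u ≠ side v) {U : Finset V} {ρ : (V → S) → ℝ}
    {X E : Finset V} (hf : FanL H side A μ c U ρ X E) {P : Finset V} (hP : P ⊆ X)
    (hPn : P.Nonempty) : ∀ f : (V → S) → ℝ, DepOn P f →
    EM side μ c (fun z => ρ z * f z) = EM side μ c (fun z => hQ A μ P z * f z) := by
  intro f hfd
  have h1 := ((hf.dropE h hs (Finset.empty_subset E)).dropX h hs hP hPn (by simp)).law f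
    (by rwa [Finset.union_empty])
  rw [h1]
  refine EM_congr fun z _ => ?_
  unfold fdens
  rw [Finset.prod_empty, mul_one]

theorem FanL.star (h : Rev A μ c) {H : SimpleGraph V}
    (hs : ∀ u v, H.Adj u v → side u ≠ side v) {U : Finset V} {ρ : (V → S) → ℝ}
    {X E : Finset V} (hf : FanL H side A μ c U ρ X E) {P : Finset V} (hP : P ⊆ X)
    (hPn : P.Nonempty) : MM side A μ c ρ P = DD side μ c ρ P := by
  rw [DD_eq (side := side) (c := c) h (depOn_hQ P) (hf.starLaw h hs hP hPn)]
  rfl

theorem FanL.val (h : Rev A μ c) {H : SimpleGraph V}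
    (hs : ∀ u v, H.Adj u v → side u ≠ side v) {U : Finset V} {ρ : (V → S) → ℝ}
    {X E : Finset V} (hf : FanL H side A μ c U ρ X E) {P : Finset V} (hP : P ⊆ X)
    (hPn : P.Nonempty) : DD side μ c ρ P =
      EM side μ c (fun z => hQ A μ P z * Real.log (hQ A μ P z)) := by
  rw [DD_eq (side := side) (c := c) h (depOn_hQ P) (hf.starLaw h hs hP hPn)]
  refine hf.starLaw h hs hP hPn (fun z => Real.log (hQ A μ P z)) ?_
  intro z z' hz
  show Real.log (hQ A μ P z) = Real.log (hQ A μ P z')
  rw [depOn_hQ P z z' hz]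

/-- the relative entropy of a fan -/
theorem FanL.fan (h : Rev A μ c) {H : SimpleGraph V}
    (hs : ∀ u v, H.Adj u v → side u ≠ side v) {U : Finset V} {ρ : (V → S) → ℝ}
    (hρ : ∀ z, 0 ≤ ρ z) {X E : Finset V} (hf : FanL H side A μ c U ρ X E) {T R : Finset V}
    (hT : T ⊆ X) (hR : R ⊆ E) (hTR : ∀ u ∈ R, tr H X u ⊆ T) :
    DD side μ c ρ (T ∪ R) = DD side μ c ρ T +
      ∑ u ∈ R, (∑ i ∈ tr H X u, ee side A μ c ρ i u - MM side A μ c ρ (tr H X u)) := by
  rcases Finset.eq_empty_or_nonempty T with rfl | hTn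
  · have hRe : R = ∅ := by
      refine Finset.eq_empty_of_forall_notMem fun u hu => ?_
      obtain ⟨i, hi⟩ := hf.tn u (hR hu)
      exact absurd (hTR u hu hi) (Finset.notMem_empty i)
    rw [hRe]
    simp
  · have hadj : ∀ u ∈ R, ∀ x ∈ X, H.Adj u x → x ∈ T := fun u hu x hx hux =>
      hTR u hu (mem_tr.2 ⟨hx, hux⟩)
    have htr : ∀ u ∈ R, tr H X u = tr H T u := fun u hu => tr_eq hT (hadj u hu)
    have hg : FanL H side A μ c U ρ T R := (hf.dropE h hs hR).dropX h hs hT hTn hadj
    rw [DD_eq (side := side) (c := c) h (depOn_fdens H T R) hg.law, ← hf.star h hs hT hTn]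
    unfold MM ee
    have e1 : ∀ u ∈ R, ∑ i ∈ tr H X u, EM side μ c (fun z => ρ z *
        Real.log (kk A μ (z i) (z u))) - EM side μ c (fun z => ρ z *
          Real.log (hQ A μ (tr H X u) z)) = EM side μ c (fun z =>
            ∑ i ∈ tr H X u, ρ z * Real.log (kk A μ (z i) (z u)) -
              ρ z * Real.log (hQ A μ (tr H X u) z)) := by
      intro u _
      rw [EM_sub, EM_sum]
    rw [Finset.sum_congr rfl e1, ← EM_sum R, ← EM_add]
    refine EM_congr fun z hz => ?_
    by_cases h0 : ρ z = 0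
    · rw [h0]
      simp
    · have p1 := hf.pos h hρ hT z hz h0
      have p2 : ∀ u ∈ R, 0 < rr A μ (tr H T u) u z := by
        intro u hu
        rw [← htr u hu]
        exact mul_pos (Finset.prod_pos fun i hi => hf.kp h hρ z hz h0 u (hR hu) i hi)
          (inv_pos.2 (hf.pos h hρ (tr_sub H X u) z hz h0))
      unfold fdens
      rw [Real.log_mul p1.ne' (Finset.prod_pos p2).ne',
        Real.log_prod (fun u hu => (p2 u hu).ne'), mul_add, Finset.mul_sum]
      congr 1
      refine Finset.sum_congr rfl fun u hu => ?_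
      rw [← htr u hu]
      unfold rr
      have q1 : ∀ i ∈ tr H X u, kk A μ (z i) (z u) ≠ 0 := fun i hi =>
        (hf.kp h hρ z hz h0 u (hR hu) i hi).ne'
      rw [Real.log_mul (Finset.prod_ne_zero_iff.2 q1)
        (inv_pos.2 (hf.pos h hρ (tr_sub H X u) z hz h0)).ne', Real.log_inv,
        Real.log_prod q1, ← Finset.mul_sum]
      ring

/-- THE LOWER BOUND -/
theorem FanL.low (h : Rev A μ c) {H : SimpleGraph V}
    (hs : ∀ u v, H.Adj u v → side u ≠ side v) {U : Finset V} {ρ : (V → S) → ℝ}
    (hρ : ∀ z, 0 ≤ ρ z) (hone : EM side μ c ρ = 1) {X E : Finset V}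
    (hf : FanL H side A μ c U ρ X E) {R T C : Finset V} (hR : R ⊆ E)
    (hRn : R.Nonempty) (hC : ∀ u ∈ R, C ⊆ tr H X u) (hTA : T ⊆ X)
    (ht : ∀ u ∈ R, tr H X u ⊆ T) :
    ∑ u ∈ R, (DD side μ c ρ (tr H X u) - DD side μ c ρ (tr H X u \ C)) -
      (DD side μ c ρ T - DD side μ c ρ (T \ C)) ≤ C.card * MM side A μ c ρ R := by
  obtain ⟨r, hr⟩ := id hRn
  have hkp := hf.kp h hρ
  have hsd := hf.sd hs
  have hCT : C ⊆ T := (hC r hr).trans (ht r hr)
  let P := T \ C
  have hPA : P ⊆ X := Finset.sdiff_subset.trans hTA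
  have haZ : ∀ a ∈ T, a ∉ E := fun a ha hm => hsd a hm a (hTA ha) rfl
  have haR : ∀ a ∈ T, a ∉ R := fun a ha hm => haZ a ha (hR hm)
  -- (i)
  have h1 : ∀ C' : Finset V, C' ⊆ C → DD side μ c ρ (P ∪ R) +
      (∑ u ∈ R, ∑ a ∈ C', ee side A μ c ρ a u - C'.card * MM side A μ c ρ R) ≤
        DD side μ c ρ (C' ∪ (P ∪ R)) := by
    intro C'
    induction C' using Finset.induction_on with
    | empty =>
      intro _
      simp
    | insert a C' ha ih =>
      intro hsub
      have haC : a ∈ C := hsub (mem_insert_self _ _)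
      have h3 := ih ((Finset.subset_insert _ _).trans hsub)
      have haPR : a ∉ C' ∪ (P ∪ R) := by
        rw [mem_union, mem_union, not_or, not_or]
        exact ⟨ha, fun hm => (mem_sdiff.1 hm).2 haC, haR a (hCT haC)⟩
      have h4 := DD_kl (side := side) h hρ hone haPR (R := R)
        (Finset.subset_union_right.trans Finset.subset_union_right) ⟨r, hr⟩
        (fun u hu => (hsd u (hR hu) a (hTA (hCT haC))).symm) (fun z hz h0 u hu => by
          rw [kk_symm h]
          exact hkp z hz h0 u (hR hu) a (hC u hu haC))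
      have e1 : ∑ u ∈ R, ∑ x ∈ insert a C', ee side A μ c ρ x u =
          ∑ u ∈ R, ee side A μ c ρ u a + ∑ u ∈ R, ∑ x ∈ C', ee side A μ c ρ x u := by
        rw [← Finset.sum_add_distrib]
        refine Finset.sum_congr rfl fun u _ => ?_
        rw [Finset.sum_insert ha, ee_symm h ρ a u]
      rw [e1, Finset.card_insert_of_notMem ha, Finset.insert_union]
      push_cast
      linarith
  have h1C := h1 C (Finset.Subset.refl _)
  have e1 : C ∪ (P ∪ R) = T ∪ R := by
    rw [← Finset.union_assoc, Finset.union_sdiff_of_subset hCT]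
  rw [e1] at h1C
  -- (ii)
  have h2 : ∀ R' : Finset V, R' ⊆ R → DD side μ c ρ P + ∑ u ∈ R',
      (∑ i ∈ tr H X u \ C, ee side A μ c ρ i u - DD side μ c ρ (tr H X u \ C)) ≤
        DD side μ c ρ (P ∪ R') := by
    intro R'
    induction R' using Finset.induction_on with
    | empty =>
      intro _
      rw [Finset.sum_empty, add_zero, Finset.union_empty]
    | insert u R' hu ih =>
      intro hsub
      have huR : u ∈ R := hsub (mem_insert_self _ _)
      have h3 := ih ((Finset.subset_insert _ _).trans hsub)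
      have hQP : tr H X u \ C ⊆ P := Finset.sdiff_subset_sdiff (ht u huR) (Finset.Subset.refl _)
      have huA : u ∉ X := fun hm => hsd u (hR huR) u hm rfl
      have huW : u ∉ P ∪ R' := by
        rw [mem_union, not_or]
        exact ⟨fun hm => huA (hPA hm), hu⟩
      rw [Finset.sum_insert hu, Finset.union_insert]
      rcases Finset.eq_empty_or_nonempty (tr H X u \ C) with h4 | h4
      · rw [h4, Finset.sum_empty, DD_empty (side := side) h hone]
        have h5 := DD_mono (side := side) h hρ hone (Finset.subset_insert u (P ∪ R'))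
        linarith
      · have h5 := DD_kl (side := side) h hρ hone huW (R := tr H X u \ C)
          (hQP.trans Finset.subset_union_left) h4
          (fun i hi => hsd u (hR huR) i (hPA (hQP hi)))
          (fun z hz h0 i hi => hkp z hz h0 u (hR huR) i (mem_sdiff.1 hi).1)
        rw [hf.star h hs (hQP.trans hPA) h4] at h5
        linarith
  have h3 := h2 R (Finset.Subset.refl _)
  -- (iii)
  have h4 := hf.fan h hs hρ hTA hR ht
  have h5 : ∀ u ∈ R, ∑ i ∈ tr H X u, ee side A μ c ρ i u - MM side A μ c ρ (tr H X u) =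
      (∑ i ∈ C, ee side A μ c ρ i u + ∑ i ∈ tr H X u \ C, ee side A μ c ρ i u) -
        DD side μ c ρ (tr H X u) := by
    intro u hu
    rw [hf.star h hs (tr_sub H X u) (hf.tn u (hR hu)),
      ← Finset.sum_sdiff (hC u hu), add_comm]
  rw [Finset.sum_congr rfl h5, Finset.sum_sub_distrib, Finset.sum_add_distrib] at h4
  rw [Finset.sum_sub_distrib] at h3
  rw [Finset.sum_sub_distrib]
  show _ - (DD side μ c ρ T - DD side μ c ρ P) ≤ _
  linarith

end FanLaw2

end Vale.Agent.P050.Books
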