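import Vale.Agent.P050.R4.H422.FanSound
import Vale.Agent.P050.R2.H545.HubD2

/-!
# P050: a new vertex whose conditional law is that of a member of a fan
-/

set_option linter.unusedSectionVars false

namespace Vale.Agent.P050.Books

open Finset Vale.Agent.P050.Lev Vale.Agent.P050.Ears

section FanNew

variable {V S : Type} [Fintype V] [DecidableEq V] [Fintype S]
  {side : V → Bool} {A : Matrix S S ℝ} {μ : S → ℝ} {c : S → Bool}

/-- the integral over the state of `a` -/
noncomputable def gi (side : V → Bool) (μ : S → ℝ) (c : S → Bool) (a : V) (G : (V → S) → ℝ)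
    (z : V → S) : ℝ := ∑ x, mm side μ c a x * G (Function.update z a x)

theorem gi_nonneg (h : Rev A μ c) {a : V} {G : (V → S) → ℝ} (hG : ∀ z, 0 ≤ G z) (z : V → S) :
    0 ≤ gi side μ c a G z :=
  Finset.sum_nonneg fun x _ => mul_nonneg (mm_nonneg h a x) (hG _)

theorem depOn_gi {W : Finset V} {a : V} {G : (V → S) → ℝ} (hG : DepOn (insert a W) G) :
    DepOn W (gi side μ c a G) := by
  intro z z' hz
  refine Finset.sum_congr rfl fun x _ => ?_
  congr 1
  refine hG _ _ fun u hu => ?_
  by_cases hua : u = a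
  · rw [hua, Function.update_self, Function.update_self]
  · rw [Function.update_of_ne hua, Function.update_of_ne hua]
    exact hz u ((mem_insert.1 hu).resolve_left hua)

theorem gi_zero (h : Rev A μ c) {a : V} {G : (V → S) → ℝ} (hG : ∀ z, 0 ≤ G z) {z : V → S}
    (hz : (∏ v, mm side μ c v (z v)) ≠ 0) (h0 : gi side μ c a G z = 0) : G z = 0 := by
  unfold gi at h0
  have h1 := (Finset.sum_eq_zero_iff_of_nonneg fun x _ =>
    mul_nonneg (mm_nonneg (side := side) h a x) (hG _)).1 h0 (z a) (mem_univ _)
  rw [Function.update_eq_self] at h1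
  exact (mul_eq_zero.1 h1).resolve_left ((Finset.prod_ne_zero_iff.1 hz) a (mem_univ _))

/-- the law with the new vertex -/
noncomputable def nw (side : V → Bool) (μ : S → ℝ) (c : S → Bool) (a : V) (ρ G : (V → S) → ℝ)
    (z : V → S) : ℝ := ρ z * (G z * (gi side μ c a G z)⁻¹)

theorem nw_persist (h : Rev A μ c) {U W : Finset V} {a : V} {ρ G : (V → S) → ℝ}
    (hdep : DepOn U ρ) (hρ : ∀ z, 0 ≤ ρ z) (ha : a ∉ U) (hW : W ⊆ U)
    (hG : DepOn (insert a W) G)
    (hlaw : ∀ f : (V → S) → ℝ, DepOn W f →
      EM side μ c (fun z => ρ z * f z) = EM side μ c (fun z => gi side μ c a G z * f z))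
    {f : (V → S) → ℝ} (hf : DepOn U f) :
    EM side μ c (fun z => nw side μ c a ρ G z * f z) = EM side μ c (fun z => ρ z * f z) := by
  have hg := depOn_gi (side := side) (μ := μ) (c := c) hG
  have haW : a ∉ W := fun hm => ha (hW hm)
  have e1 : EM side μ c (fun z => nw side μ c a ρ G z * f z) =
      EM side μ c (fun z => (ρ z * f z) * (G z * (gi side μ c a G z)⁻¹)) :=
    EM_congr fun z _ => by unfold nw; ring
  rw [e1, EM_int (side := side) h ha (hdep.mul hf)
    (r := fun z => G z * (gi side μ c a G z)⁻¹) (g := fun _ => 1)]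
  · exact EM_congr fun z _ => mul_one _
  · intro z hz h0
    have h1 : gi side μ c a G z ≠ 0 := ne_of_law h hρ hg hlaw hz (left_ne_zero_of_mul h0)
    have e2 : ∀ x, mm side μ c a x * (G (Function.update z a x) *
        (gi side μ c a G (Function.update z a x))⁻¹) =
        (mm side μ c a x * G (Function.update z a x)) * (gi side μ c a G z)⁻¹ := by
      intro x
      rw [hg.update haW]
      ring
    simp only [e2]
    rw [← Finset.sum_mul]
    exact mul_inv_cancel₀ h1

theorem nw_law (h : Rev A μ c) {U W : Finset V} {a : V} {ρ G : (V → S) → ℝ}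
    (hdep : DepOn U ρ) (ha : a ∉ U) (hW : W ⊆ U) (hG0 : ∀ z, 0 ≤ G z)
    (hG : DepOn (insert a W) G)
    (hlaw : ∀ f : (V → S) → ℝ, DepOn W f →
      EM side μ c (fun z => ρ z * f z) = EM side μ c (fun z => gi side μ c a G z * f z))
    {f : (V → S) → ℝ} (hf : DepOn (insert a W) f) :
    EM side μ c (fun z => nw side μ c a ρ G z * f z) = EM side μ c (fun z => G z * f z) := by
  have hg := depOn_gi (side := side) (μ := μ) (c := c) hG
  have haW : a ∉ W := fun hm => ha (hW hm)
  let r : (V → S) → ℝ := fun z => (G z * (gi side μ c a G z)⁻¹) * f z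
  have hr : DepOn (insert a W) r := by
    refine DepOn.mul (hG.mul ?_) hf
    intro z z' hz
    show (gi side μ c a G z)⁻¹ = (gi side μ c a G z')⁻¹
    rw [hg z z' fun u hu => hz u (mem_insert_of_mem hu)]
  have hk := depOn_gi (side := side) (μ := μ) (c := c) hr
  have e1 : EM side μ c (fun z => nw side μ c a ρ G z * f z) =
      EM side μ c (fun z => ρ z * r z) := EM_congr fun z _ => by
    show nw side μ c a ρ G z * f z = ρ z * ((G z * (gi side μ c a G z)⁻¹) * f z)
    unfold nw
    ring
  have e2 : EM side μ c (fun z => ρ z * r z) =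
      EM side μ c (fun z => ρ z * gi side μ c a r z) := EM_push h ha hdep r
  have e3 : EM side μ c (fun z => gi side μ c a G z * r z) =
      EM side μ c (fun z => gi side μ c a G z * gi side μ c a r z) := EM_push h haW hg r
  rw [e1, e2, hlaw _ hk, ← e3]
  refine EM_congr fun z hz => ?_
  show gi side μ c a G z * ((G z * (gi side μ c a G z)⁻¹) * f z) = G z * f z
  by_cases h0 : gi side μ c a G z = 0
  · rw [gi_zero h hG0 hz h0]
    ring
  · field_simp

/-- a new vertex -/
theorem LawG.nw (h : Rev A μ c) {H : SimpleGraph V}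
    (hs : ∀ u v, H.Adj u v → side u ≠ side v) {U W N : Finset V} {a : V}
    {ρ L G : (V → S) → ℝ} {F F' : ℝ} (hl : LawG H side A μ c U ρ L F) (ha : a ∉ U)
    (hW : W ⊆ U) (hG0 : ∀ z, 0 ≤ G z) (hG : DepOn (insert a W) G)
    (hlaw : ∀ f : (V → S) → ℝ, DepOn W f →
      EM side μ c (fun z => ρ z * f z) = EM side μ c (fun z => gi side μ c a G z * f z))
    (hN : N ⊆ U) (hadj : ∀ x ∈ U, H.Adj a x ↔ x ∈ N)
    (hNk : ∀ z, (∏ v, mm side μ c v (z v)) ≠ 0 → G z ≠ 0 → ∀ k ∈ N, 0 < kk A μ (z k) (z a))
    (hlog : F' ≤ ∑ k ∈ N, ee side A μ c (nw side μ c a ρ G) k a +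
      EM side μ c (fun z => nw side μ c a ρ G z * Real.log (gi side μ c a G z)) -
        EM side μ c (fun z => nw side μ c a ρ G z * Real.log (G z))) :
    LawG H side A μ c (insert a U) (nw side μ c a ρ G)
      (fun z => L z * ((∏ k ∈ N, kk A μ (z k) (z a)) * (gi side μ c a G z * (G z)⁻¹)))
      (F + F') := by
  have hg := depOn_gi (side := side) (μ := μ) (c := c) hG
  have hg0 := gi_nonneg (side := side) (a := a) h hG0
  have hWU : insert a W ⊆ insert a U := Finset.insert_subset_insert _ hW
  have hinv : ∀ {f : (V → S) → ℝ} {W : Finset V}, DepOn W f → DepOn W fun z => (f z)⁻¹ := by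
    intro f W hf z z' hz
    show (f z)⁻¹ = (f z')⁻¹
    rw [hf z z' hz]
  have hgU : DepOn (insert a U) (gi side μ c a G) :=
    hg.mono (hW.trans (Finset.subset_insert _ _))
  refine ⟨?_, ?_, ?_, ?_, ?_, ?_, ?_⟩
  · exact (hl.dep.mono (Finset.subset_insert _ _)).mul ((hG.mono hWU).mul (hinv hgU))
  · refine (hl.depL.mono (Finset.subset_insert _ _)).mul (DepOn.mul ?_
      (hgU.mul (hinv (hG.mono hWU))))
    intro z z' hz
    refine Finset.prod_congr rfl fun k hk => ?_
    rw [hz k (mem_insert_of_mem (hN hk)), hz a (mem_insert_self _ _)]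
  · intro z
    exact mul_nonneg (hl.nonneg z) (mul_nonneg (hG0 z) (inv_nonneg.2 (hg0 z)))
  · intro z hz
    rw [edgeW_insert h hs ha hN hadj]
    have hk : 0 ≤ ∏ k ∈ N, kk A μ (z k) (z a) := Finset.prod_nonneg fun _ _ => kk_nonneg h _ _
    by_cases h0 : G z = 0
    · have e1 : Books.nw side μ c a ρ G z = 0 := by
        unfold Books.nw
        rw [h0]
        ring
      rw [e1, zero_mul]
      exact mul_nonneg (edgeW_nonneg h H U z) hk
    · by_cases h1 : gi side μ c a G z = 0
      · exact absurd (gi_zero h hG0 hz h1) h0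
      · refine le_trans (le_of_eq ?_) (mul_le_mul_of_nonneg_right (hl.mul z hz) hk)
        unfold Books.nw
        field_simp
  · intro z hz h0
    have h1 : ρ z ≠ 0 := left_ne_zero_of_mul h0
    have h2 : G z ≠ 0 := left_ne_zero_of_mul (right_ne_zero_of_mul h0)
    have h3 : gi side μ c a G z ≠ 0 := fun h4 => h2 (gi_zero h hG0 hz h4)
    refine mul_pos (hl.pos z hz h1) (mul_pos (Finset.prod_pos fun k hk => hNk z hz h2 k hk)
      (mul_pos (lt_of_le_of_ne (hg0 z) (Ne.symm h3))
        (inv_pos.2 (lt_of_le_of_ne (hG0 z) (Ne.symm h2)))))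
  · have := nw_persist h hl.dep hl.nonneg ha hW hG hlaw (f := fun _ => (1 : ℝ))
      (fun _ _ _ => rfl)
    simp only [mul_one] at this
    rw [this]
    exact hl.one
  · have hlogL : DepOn U (fun z : V → S => Real.log (L z)) := by
      intro z z' hz
      show Real.log (L z) = Real.log (L z')
      rw [hl.depL z z' hz]
    have e1 : EM side μ c (fun z => Books.nw side μ c a ρ G z * Real.log
        (L z * ((∏ k ∈ N, kk A μ (z k) (z a)) * (gi side μ c a G z * (G z)⁻¹)))) =
        EM side μ c (fun z => Books.nw side μ c a ρ G z * Real.log (L z)) +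
          (∑ k ∈ N, ee side A μ c (Books.nw side μ c a ρ G) k a +
            EM side μ c (fun z => Books.nw side μ c a ρ G z *
              Real.log (gi side μ c a G z)) -
            EM side μ c (fun z => Books.nw side μ c a ρ G z * Real.log (G z))) := by
      unfold ee
      rw [← EM_sum N, ← EM_add, ← EM_sub, ← EM_add]
      refine EM_congr fun z hz => ?_
      by_cases h0 : Books.nw side μ c a ρ G z = 0
      · rw [h0]
        simp
      · have h1 : ρ z ≠ 0 := left_ne_zero_of_mul h0
        have h2 : G z ≠ 0 := left_ne_zero_of_mul (right_ne_zero_of_mul h0)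
        have h3 : gi side μ c a G z ≠ 0 := fun h4 => h2 (gi_zero h hG0 hz h4)
        have h4 : ∀ k ∈ N, kk A μ (z k) (z a) ≠ 0 := fun k hk => (hNk z hz h2 k hk).ne'
        rw [Real.log_mul (hl.pos z hz h1).ne' (mul_ne_zero (Finset.prod_ne_zero_iff.2 h4)
          (mul_ne_zero h3 (inv_ne_zero h2))), Real.log_mul (Finset.prod_ne_zero_iff.2 h4)
          (mul_ne_zero h3 (inv_ne_zero h2)), Real.log_mul h3 (inv_ne_zero h2), Real.log_inv,
          Real.log_prod h4, ← Finset.mul_sum]
        ring
    rw [e1, nw_persist h hl.dep hl.nonneg ha hW hG hlaw hlogL]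
    exact add_le_add hl.log hlog

end FanNew

end Vale.Agent.P050.Books
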