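import Vale.Agent.P050.R4.H422.FanNew

/-!
# P050: a new member of a fan, its cost
-/

set_option linter.unusedSectionVars false

namespace Vale.Agent.P050.Books

open Finset Vale.Agent.P050.Lev Vale.Agent.P050.Ears

section FanNew2

variable {V S : Type} [Fintype V] [DecidableEq V] [Fintype S]
  {side : V → Bool} {A : Matrix S S ℝ} {μ : S → ℝ} {c : S → Bool}

theorem fdens_nonneg (h : Rev A μ c) (H : SimpleGraph V) (X E : Finset V) (z : V → S) :
    0 ≤ fdens H A μ X E z :=
  mul_nonneg (hQ_nonneg h X z) (Finset.prod_nonneg fun _ _ => rr_nonneg h _ _ _)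

/-- old fans are kept -/
theorem FanL.keepN (h : Rev A μ c) {H : SimpleGraph V} {U W : Finset V} {a : V}
    {ρ G : (V → S) → ℝ} (hdep : DepOn U ρ) (hρ : ∀ z, 0 ≤ ρ z) (ha : a ∉ U) (hW : W ⊆ U)
    (hG : DepOn (insert a W) G)
    (hlaw : ∀ f : (V → S) → ℝ, DepOn W f →
      EM side μ c (fun z => ρ z * f z) = EM side μ c (fun z => gi side μ c a G z * f z))
    {X E : Finset V} (hf : FanL H side A μ c U ρ X E) :
    FanL H side A μ c (insert a U) (nw side μ c a ρ G) X E where
  ne := hf.ne
  sub := hf.sub.trans (Finset.subset_insert _ _)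
  sx := hf.sx
  tn := hf.tn
  law := fun f hfd => by
    rw [nw_persist h hdep hρ ha hW hG hlaw (hfd.mono hf.sub)]
    exact hf.law f hfd

/-- the bound for the entropy of a member of a fan -/
theorem FanL.cost (h : Rev A μ c) {H : SimpleGraph V}
    (hs : ∀ u v, H.Adj u v → side u ≠ side v) {U : Finset V} {ρ : (V → S) → ℝ}
    (hρ : ∀ z, 0 ≤ ρ z) (hone : EM side μ c ρ = 1) {R E N : Finset V} {a : V}
    (hf : FanL H side A μ c U ρ (insert a R) E) (ha : a ∉ R)
    (hN : ∀ u, u ∈ N ↔ u ∈ E ∧ H.Adj u a) :
    ∑ u ∈ N, (DD side μ c ρ (tr H (insert a R) u) - DD side μ c ρ (tr H R u)) -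
      (DD side μ c ρ (insert a R) - DD side μ c ρ R) ≤
      ∑ u ∈ N, ee side A μ c ρ u a + DD side μ c ρ (R ∪ E) -
        DD side μ c ρ (insert a R ∪ E) := by
  have hkp := hf.kp h hρ
  have hsd := hf.sd hs
  have hRX : R ⊆ insert a R := Finset.subset_insert _ _
  have htrs : ∀ u, tr H R u ⊆ tr H (insert a R) u := fun u x hx =>
    mem_tr.2 ⟨hRX (mem_tr.1 hx).1, (mem_tr.1 hx).2⟩
  have hN1 : ∀ u ∈ N, tr H (insert a R) u = insert a (tr H R u) := by
    intro u hu
    ext x
    simp only [mem_tr, mem_insert]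
    constructor
    · rintro ⟨rfl | h1, h2⟩
      · exact Or.inl rfl
      · exact Or.inr ⟨h1, h2⟩
    · rintro (rfl | ⟨h1, h2⟩)
      · exact ⟨Or.inl rfl, ((hN u).1 hu).2⟩
      · exact ⟨Or.inr h1, h2⟩
  have hN2 : ∀ u ∈ E, u ∉ N → tr H (insert a R) u = tr H R u := by
    intro u hu huN
    ext x
    simp only [mem_tr, mem_insert]
    constructor
    · rintro ⟨rfl | h1, h2⟩
      · exact absurd ((hN u).2 ⟨hu, h2⟩) huN
      · exact ⟨h1, h2⟩
    · rintro ⟨h1, h2⟩
      exact ⟨Or.inr h1, h2⟩
  have hNE : N ⊆ E := fun u hu => ((hN u).1 hu).1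
  -- (ii)
  have h2 : ∀ E' : Finset V, E' ⊆ E → DD side μ c ρ R + ∑ u ∈ E',
      (∑ i ∈ tr H R u, ee side A μ c ρ i u - DD side μ c ρ (tr H R u)) ≤
        DD side μ c ρ (R ∪ E') := by
    intro E'
    induction E' using Finset.induction_on with
    | empty =>
      intro _
      rw [Finset.sum_empty, add_zero, Finset.union_empty]
    | insert u E' hu ih =>
      intro hsub
      have huE : u ∈ E := hsub (mem_insert_self _ _)
      have h3 := ih ((Finset.subset_insert _ _).trans hsub)
      have huW : u ∉ R ∪ E' := by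
        rw [mem_union, not_or]
        exact ⟨fun hm => hsd u huE u (hRX hm) rfl, hu⟩
      rw [Finset.sum_insert hu, Finset.union_insert]
      rcases Finset.eq_empty_or_nonempty (tr H R u) with h4 | h4
      · rw [h4, Finset.sum_empty, DD_empty (side := side) h hone]
        have h5 := DD_mono (side := side) h hρ hone (Finset.subset_insert u (R ∪ E'))
        linarith
      · have h5 := DD_kl (side := side) h hρ hone huW (R := tr H R u)
          ((tr_sub H R u).trans Finset.subset_union_left) h4
          (fun i hi => hsd u huE i (hRX (mem_tr.1 hi).1))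
          (fun z hz h0 i hi => hkp z hz h0 u huE i (htrs u hi))
        rw [hf.star h hs ((tr_sub H R u).trans hRX) h4] at h5
        linarith
  have h3 := h2 E (Finset.Subset.refl _)
  -- (iii)
  have h4 := hf.fan h hs hρ (Finset.Subset.refl _) (Finset.Subset.refl E)
    (fun u _ => tr_sub H (insert a R) u)
  have h5 : ∑ u ∈ E, (∑ i ∈ tr H (insert a R) u, ee side A μ c ρ i u -
      MM side A μ c ρ (tr H (insert a R) u)) =
      ∑ u ∈ E, (∑ i ∈ tr H R u, ee side A μ c ρ i u - DD side μ c ρ (tr H R u)) +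
        (∑ u ∈ N, ee side A μ c ρ u a -
          ∑ u ∈ N, (DD side μ c ρ (tr H (insert a R) u) - DD side μ c ρ (tr H R u))) := by
    have e1 : ∀ u ∈ E, (∑ i ∈ tr H (insert a R) u, ee side A μ c ρ i u -
        MM side A μ c ρ (tr H (insert a R) u)) =
        (∑ i ∈ tr H R u, ee side A μ c ρ i u - DD side μ c ρ (tr H R u)) +
          (if u ∈ N then ee side A μ c ρ u a -
            (DD side μ c ρ (tr H (insert a R) u) - DD side μ c ρ (tr H R u)) else 0) := by
      intro u hu
      rw [hf.star h hs (tr_sub H (insert a R) u) (hf.tn u hu)]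
      by_cases huN : u ∈ N
      · rw [if_pos huN, hN1 u huN, Finset.sum_insert (fun hm => ha (mem_tr.1 hm).1),
          ee_symm h ρ a u]
        ring
      · rw [if_neg huN, hN2 u hu huN]
        ring
    rw [Finset.sum_congr rfl e1, Finset.sum_add_distrib]
    congr 1
    rw [← Finset.sum_sub_distrib, ← Finset.sum_filter]
    have e2 : E.filter (fun u => u ∈ N) = N := by
      ext u
      simp only [mem_filter]
      exact ⟨fun hu => hu.2, fun hu => ⟨hNE hu, hu⟩⟩
    rw [e2]
  rw [h5] at h4
  linarith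

/-- a new member of a fan -/
theorem fan_new (h : Rev A μ c) {H : SimpleGraph V}
    (hs : ∀ u v, H.Adj u v → side u ≠ side v) {d : Bool → ℕ → ℝ} (d0 : ∀ σ, d σ 0 = 0)
    (hd : ∀ σ (X : Finset V), X.Nonempty → (∀ x ∈ X, side x = σ) →
      EM side μ c (fun z => hQ A μ X z * Real.log (hQ A μ X z)) = d σ X.card)
    {U R E N : Finset V} {a : V} {ρ L : (V → S) → ℝ} {F : ℝ}
    (hl : LawG H side A μ c U ρ L F) (ha : a ∉ U) (hRE : R ∪ E ⊆ U)
    (hsR : ∀ x ∈ R, side x = side a) (htn : ∀ u ∈ E, (tr H (insert a R) u).Nonempty)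
    (hN : ∀ u, u ∈ N ↔ u ∈ E ∧ H.Adj u a) (hadj : ∀ x ∈ U, H.Adj a x ↔ x ∈ N)
    (hlaw : ∀ f : (V → S) → ℝ, DepOn (R ∪ E) f → EM side μ c (fun z => ρ z * f z) =
      EM side μ c (fun z => gi side μ c a (fdens H A μ (insert a R) E) z * f z)) :
    ∃ ρ' L' : (V → S) → ℝ, LawG H side A μ c (insert a U) ρ' L'
        (F + (∑ u ∈ N, (d (side a) ((tr H R u).card + 1) - d (side a) (tr H R u).card) -
          (d (side a) (R.card + 1) - d (side a) R.card))) ∧
      FanL H side A μ c (insert a U) ρ' (insert a R) E ∧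
      ∀ X E' : Finset V, FanL H side A μ c U ρ X E' →
        FanL H side A μ c (insert a U) ρ' X E' := by
  have haR : a ∉ R := fun hm => ha (hRE (mem_union_left _ hm))
  have hG : DepOn (insert a (R ∪ E)) (fdens H A μ (insert a R) E : (V → S) → ℝ) := by
    rw [← Finset.insert_union]
    exact depOn_fdens H (insert a R) E
  have hG0 := fdens_nonneg (A := A) (μ := μ) (c := c) h H (insert a R) E
  have hρ0 : ∀ z, 0 ≤ nw side μ c a ρ (fdens H A μ (insert a R) E) z := fun z =>
    mul_nonneg (hl.nonneg z) (mul_nonneg (hG0 z)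
      (inv_nonneg.2 (gi_nonneg (side := side) h hG0 z)))
  have hone : EM side μ c (nw side μ c a ρ (fdens H A μ (insert a R) E)) = 1 := by
    have := nw_persist h hl.dep hl.nonneg ha hRE hG hlaw (f := fun _ => (1 : ℝ))
      (fun _ _ _ => rfl)
    simp only [mul_one] at this
    rw [this]
    exact hl.one
  have hf : FanL H side A μ c (insert a U)
      (nw side μ c a ρ (fdens H A μ (insert a R) E)) (insert a R) E := by
    refine ⟨⟨a, mem_insert_self _ _⟩, ?_, ?_, htn, ?_⟩
    · rw [Finset.insert_union]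
      exact Finset.insert_subset_insert _ hRE
    · intro i hi j hj
      have key : ∀ k ∈ insert a R, side k = side a := by
        intro k hk
        rcases mem_insert.1 hk with rfl | hk
        · rfl
        · exact hsR k hk
      rw [key i hi, key j hj]
    · intro f hfd
      rw [Finset.insert_union] at hfd
      exact nw_law h hl.dep ha hRE hG0 hG hlaw hfd
  have hcost := hf.cost h hs hρ0 hone haR hN
  have hσ : ∀ x ∈ insert a R, side x = side a := by
    intro k hk
    rcases mem_insert.1 hk with rfl | hk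
    · rfl
    · exact hsR k hk
  have hdd : ∀ P ⊆ insert a R, DD side μ c (nw side μ c a ρ (fdens H A μ (insert a R) E)) P =
      d (side a) P.card := fun P hP => hf.dd h hs d0 hd hone hσ hP
  have hNU : N ⊆ U := fun u hu => hRE (mem_union_right _ ((hN u).1 hu).1)
  have hNk : ∀ z, (∏ v, mm side μ c v (z v)) ≠ 0 → fdens H A μ (insert a R) E z ≠ 0 →
      ∀ k ∈ N, 0 < kk A μ (z k) (z a) := by
    intro z _ h0 k hk
    unfold fdens at h0
    have h2 := (Finset.prod_ne_zero_iff.1 (right_ne_zero_of_mul h0)) k ((hN k).1 hk).1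
    unfold rr at h2
    have h3 := (Finset.prod_ne_zero_iff.1 (left_ne_zero_of_mul h2)) a
      (mem_tr.2 ⟨mem_insert_self _ _, ((hN k).1 hk).2⟩)
    rw [kk_symm h]
    exact lt_of_le_of_ne (kk_nonneg h _ _) (Ne.symm h3)
  have e1 : ∑ u ∈ N, (DD side μ c (nw side μ c a ρ (fdens H A μ (insert a R) E))
      (tr H (insert a R) u) - DD side μ c (nw side μ c a ρ (fdens H A μ (insert a R) E))
      (tr H R u)) = ∑ u ∈ N, (d (side a) ((tr H R u).card + 1) - d (side a) (tr H R u).card) := by
    refine Finset.sum_congr rfl fun u hu => ?_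
    have h1 : tr H (insert a R) u = insert a (tr H R u) := by
      ext x
      simp only [mem_tr, mem_insert]
      constructor
      · rintro ⟨rfl | h1, h2⟩
        · exact Or.inl rfl
        · exact Or.inr ⟨h1, h2⟩
      · rintro (rfl | ⟨h1, h2⟩)
        · exact ⟨Or.inl rfl, ((hN u).1 hu).2⟩
        · exact ⟨Or.inr h1, h2⟩
    rw [hdd _ (tr_sub H _ u), hdd _ ((tr_sub H R u).trans (Finset.subset_insert _ _)), h1,
      Finset.card_insert_of_notMem fun hm => haR (mem_tr.1 hm).1]
  rw [e1, hdd _ (Finset.Subset.refl _), hdd _ (Finset.subset_insert _ _),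
    Finset.card_insert_of_notMem haR] at hcost
  have e2 : DD side μ c (nw side μ c a ρ (fdens H A μ (insert a R) E)) (insert a R ∪ E) =
      EM side μ c (fun z => nw side μ c a ρ (fdens H A μ (insert a R) E) z *
        Real.log (fdens H A μ (insert a R) E z)) :=
    DD_eq (side := side) (c := c) h (depOn_fdens H (insert a R) E) hf.law
  have e3 : DD side μ c (nw side μ c a ρ (fdens H A μ (insert a R) E)) (R ∪ E) =
      EM side μ c (fun z => nw side μ c a ρ (fdens H A μ (insert a R) E) z *
        Real.log (gi side μ c a (fdens H A μ (insert a R) E) z)) :=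
    DD_eq (side := side) (c := c) h (depOn_gi hG) fun f hf' => by
      rw [nw_persist h hl.dep hl.nonneg ha hRE hG hlaw (hf'.mono hRE)]
      exact hlaw f hf'
  rw [e2, e3] at hcost
  exact ⟨_, _, hl.nw h hs ha hRE hG0 hG hlaw hNU hadj hNk hcost, hf,
    fun X E' hX => hX.keepN h hl.dep hl.nonneg ha hRE hG hlaw⟩

/-- the law of a leaf -/
theorem leaf_law (h : Rev A μ c) {H : SimpleGraph V}
    (hs : ∀ u v, H.Adj u v → side u ≠ side v) {U R E : Finset V} {a : V} {ρ : (V → S) → ℝ}
    (hf : FanL H side A μ c U ρ R E) (ha : a ∉ U) (hsa : ∀ x ∈ R, side x = side a)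
    (hE : ∀ u ∈ E, ¬ H.Adj u a) : ∀ f : (V → S) → ℝ, DepOn (R ∪ E) f →
    EM side μ c (fun z => ρ z * f z) =
      EM side μ c (fun z => gi side μ c a (fdens H A μ (insert a R) E) z * f z) := by
  intro f hfd
  rw [hf.law f hfd]
  refine EM_congr fun z hz => ?_
  congr 1
  have haR : a ∉ R := fun hm => ha (hf.sub (mem_union_left _ hm))
  have haW : a ∉ R ∪ E := fun hm => ha (hf.sub hm)
  have htr : ∀ u ∈ E, tr H (insert a R) u = tr H R u := fun u hu =>
    tr_eq (Finset.subset_insert _ _) fun x hx hux => by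
      rcases mem_insert.1 hx with rfl | hx
      · exact absurd hux (hE u hu)
      · exact hx
  obtain ⟨i, hi⟩ := hf.ne
  have hp := depOn_prodrr (A := A) (μ := μ) H R E (W := R ∪ E) Finset.subset_union_left
    Finset.subset_union_right
  unfold gi
  have e1 : ∀ x, mm side μ c a x * fdens H A μ (insert a R) E (Function.update z a x) =
      (mm side μ c a x * hQ A μ (insert a R) (Function.update z a x)) *
        ∏ u ∈ E, rr A μ (tr H R u) u z := by
    intro x
    unfold fdens
    have e2 : ∏ u ∈ E, rr A μ (tr H (insert a R) u) u (Function.update z a x) =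
        ∏ u ∈ E, rr A μ (tr H R u) u z := by
      rw [Finset.prod_congr rfl fun u hu => by rw [htr u hu]]
      exact hp.update haW z x
    rw [e2]
    ring
  simp only [e1]
  rw [← Finset.sum_mul, hQ_int h haR hi (hsa i hi) hz]
  rfl

theorem hQ_relabel {R : Finset V} {i a : V} (hi : i ∉ R) (ha : a ∉ R) (z : V → S) (x : S) :
    hQ A μ (insert i R) (Function.update z i x) =
      hQ A μ (insert a R) (Function.update z a x) := by
  unfold hQ
  refine Finset.sum_congr rfl fun y _ => ?_
  rw [Finset.prod_insert hi, Finset.prod_insert ha, Function.update_self, Function.update_self]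
  congr 2
  refine Finset.prod_congr rfl fun k hk => ?_
  rw [Function.update_of_ne, Function.update_of_ne]
  · rintro rfl
    exact ha hk
  · rintro rfl
    exact hi hk

theorem rr_relabel {R : Finset V} {i a u : V} (hi : i ∉ R) (ha : a ∉ R) (hui : u ≠ i)
    (hua : u ≠ a) (z : V → S) (x : S) :
    rr A μ (insert i R) u (Function.update z i x) =
      rr A μ (insert a R) u (Function.update z a x) := by
  unfold rr
  rw [hQ_relabel hi ha, Finset.prod_insert hi, Finset.prod_insert ha, Function.update_self,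
    Function.update_self, Function.update_of_ne hui, Function.update_of_ne hua]
  congr 2
  refine Finset.prod_congr rfl fun k hk => ?_
  rw [Function.update_of_ne, Function.update_of_ne]
  · rintro rfl
    exact ha hk
  · rintro rfl
    exact hi hk

/-- the law of a copy -/
theorem copy_law (h : Rev A μ c) {H : SimpleGraph V}
    (hs : ∀ u v, H.Adj u v → side u ≠ side v) {U R E : Finset V} {i a : V} {ρ : (V → S) → ℝ}
    (hf : FanL H side A μ c U ρ (insert i R) E) (hi : i ∉ R) (ha : a ∉ U)
    (hsa : side i = side a) (hE : ∀ u ∈ E, (H.Adj u a ↔ H.Adj u i)) :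
    ∀ f : (V → S) → ℝ, DepOn (R ∪ E) f →
    EM side μ c (fun z => ρ z * f z) =
      EM side μ c (fun z => gi side μ c a (fdens H A μ (insert a R) E) z * f z) := by
  intro f hfd
  have hiE : i ∉ E := fun hm => hf.notMem hs i hm (mem_insert_self _ _)
  have hiW : i ∉ R ∪ E := by
    rw [mem_union, not_or]
    exact ⟨hi, hiE⟩
  have haR : a ∉ R := fun hm => ha (hf.sub (mem_union_left _ (mem_insert_of_mem hm)))
  have haE : a ∉ E := fun hm => ha (hf.sub (mem_union_right _ hm))
  have hsub : R ∪ E ⊆ insert i R ∪ E :=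
    Finset.union_subset_union_left (Finset.subset_insert _ _)
  rw [hf.law f (hfd.mono hsub)]
  have e1 : EM side μ c (fun z => fdens H A μ (insert i R) E z * f z) =
      EM side μ c (fun z => f z * fdens H A μ (insert i R) E z) :=
    EM_congr fun z _ => mul_comm _ _
  have e2 : EM side μ c (fun z => f z * fdens H A μ (insert i R) E z) =
      EM side μ c (fun z => f z * ∑ x, mm side μ c i x *
        fdens H A μ (insert i R) E (Function.update z i x)) := EM_push h hiW hfd _
  rw [e1, e2]
  refine EM_congr fun z _ => ?_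
  rw [mul_comm]
  congr 1
  unfold gi
  refine Finset.sum_congr rfl fun x _ => ?_
  have e3 : mm side μ c i x = mm side μ c a x := by
    unfold mm
    rw [hsa]
  rw [e3]
  congr 1
  unfold fdens
  rw [hQ_relabel hi haR]
  congr 1
  refine Finset.prod_congr rfl fun u hu => ?_
  have hui : u ≠ i := fun e => hiE (e ▸ hu)
  have hua : u ≠ a := fun e => haE (e ▸ hu)
  by_cases hadj : H.Adj u i
  · have t1 : tr H (insert i R) u = insert i (tr H R u) := by
      ext y
      simp only [mem_tr, mem_insert]
      constructor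
      · rintro ⟨rfl | h1, h2⟩
        · exact Or.inl rfl
        · exact Or.inr ⟨h1, h2⟩
      · rintro (rfl | ⟨h1, h2⟩)
        · exact ⟨Or.inl rfl, hadj⟩
        · exact ⟨Or.inr h1, h2⟩
    have t2 : tr H (insert a R) u = insert a (tr H R u) := by
      ext y
      simp only [mem_tr, mem_insert]
      constructor
      · rintro ⟨rfl | h1, h2⟩
        · exact Or.inl rfl
        · exact Or.inr ⟨h1, h2⟩
      · rintro (rfl | ⟨h1, h2⟩)
        · exact ⟨Or.inl rfl, (hE u hu).2 hadj⟩
        · exact ⟨Or.inr h1, h2⟩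
    rw [t1, t2]
    exact rr_relabel (fun hm => hi (mem_tr.1 hm).1) (fun hm => haR (mem_tr.1 hm).1) hui hua z x
  · have t1 : tr H (insert i R) u = tr H R u :=
      tr_eq (Finset.subset_insert _ _) fun y hy huy => by
        rcases mem_insert.1 hy with rfl | hy
        · exact absurd huy hadj
        · exact hy
    have t2 : tr H (insert a R) u = tr H R u :=
      tr_eq (Finset.subset_insert _ _) fun y hy huy => by
        rcases mem_insert.1 hy with rfl | hy
        · exact absurd ((hE u hu).1 huy) hadj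
        · exact hy
    rw [t1, t2]
    have hd : DepOn (insert u R) (rr A μ (tr H R u) u : (V → S) → ℝ) := depOn_rr (tr_sub H R u)
    rw [hd.update (v := i), hd.update (v := a)]
    · rw [mem_insert, not_or]
      exact ⟨hua.symm, haR⟩
    · rw [mem_insert, not_or]
      exact ⟨hui.symm, hi⟩

end FanNew2

end Vale.Agent.P050.Books
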