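import Vale.Agent.P050.R4.H422.FanLaw2

/-!
# P050: the Sidorenko inequality for graphs built with fans
-/

set_option linter.unusedSectionVars false

namespace Vale.Agent.P050.Books

open Finset Vale.Agent.P050.Lev Vale.Agent.P050.Ears

/-- the value of a balance -/
def bal (d : Bool → ℕ → ℝ) (M : Bool → ℕ) (β : Bool → ℕ → ℝ) : ℝ :=
  ∑ σ, ∑ j ∈ range (M σ), (d σ (j + 2) - 2 * d σ (j + 1) + d σ j) * β σ (j + 2)

theorem bal_add (d : Bool → ℕ → ℝ) (M : Bool → ℕ) (β : Bool → ℕ → ℝ) (s : Bool) (g : ℕ → ℝ) :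
    bal d M (fun σ m => β σ m + if σ = s then g m else 0) = bal d M β +
      ∑ j ∈ range (M s), (d s (j + 2) - 2 * d s (j + 1) + d s j) * g (j + 2) := by
  unfold bal
  cases s <;> simp [mul_add, Finset.sum_add_distrib]

theorem bal_add' (d : Bool → ℕ → ℝ) (M : Bool → ℕ) (β : Bool → ℕ → ℝ) (s : Bool) (g : ℕ → ℝ) :
    bal d M (fun σ m => β σ m + if σ = s then 0 else g m) = bal d M β +
      ∑ j ∈ range (M (!s)), (d (!s) (j + 2) - 2 * d (!s) (j + 1) + d (!s) j) * g (j + 2) := by
  unfold bal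
  cases s <;> simp [mul_add, Finset.sum_add_distrib]

section FanSound

variable {V S : Type} [Fintype V] [DecidableEq V] [Fintype S]
  {side : V → Bool} {A : Matrix S S ℝ} {μ : S → ℝ} {c : S → Bool}

theorem fanL_point (h : Rev A μ c) (H : SimpleGraph V) (v : V) :
    FanL H side A μ c {v} (fun _ => (1 : ℝ)) {v} ∅ where
  ne := singleton_nonempty v
  sub := by simp
  sx := fun i hi j hj => by rw [mem_singleton.1 hi, mem_singleton.1 hj]
  tn := by simp
  law := by
    intro f _
    refine EM_congr fun z _ => ?_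
    unfold fdens
    rw [hQ_singleton h]
    simp

/-- the relative entropies of the sets of independent neighbours of a hub -/
theorem FanL.dd (h : Rev A μ c) {H : SimpleGraph V}
    (hs : ∀ u v, H.Adj u v → side u ≠ side v) {d : Bool → ℕ → ℝ} (d0 : ∀ σ, d σ 0 = 0)
    (hd : ∀ σ (X : Finset V), X.Nonempty → (∀ x ∈ X, side x = σ) →
      EM side μ c (fun z => hQ A μ X z * Real.log (hQ A μ X z)) = d σ X.card)
    {U : Finset V} {ρ : (V → S) → ℝ} (hone : EM side μ c ρ = 1)
    {X E : Finset V} (hf : FanL H side A μ c U ρ X E) {σ : Bool} (hσ : ∀ x ∈ X, side x = σ)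
    {P : Finset V} (hP : P ⊆ X) : DD side μ c ρ P = d σ P.card := by
  rcases Finset.eq_empty_or_nonempty P with rfl | hPn
  · rw [Finset.card_empty, d0]
    exact DD_empty (side := side) h hone
  · rw [hf.val h hs hP hPn]
    exact hd σ P hPn fun x hx => hσ x (hP hx)

/-- SOUNDNESS of the fan calculus -/
theorem fans_sound (h : Rev A μ c) {H : SimpleGraph V}
    (hs : ∀ u v, H.Adj u v → side u ≠ side v) {d : Bool → ℕ → ℝ} (d0 : ∀ σ, d σ 0 = 0)
    (d1 : ∀ σ, d σ 1 = 0) {M : Bool → ℕ}
    (hM : ∀ σ (X : Finset V), (∀ x ∈ X, side x = σ) → X.card ≤ M σ + 1)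
    (hd : ∀ σ (X : Finset V), X.Nonempty → (∀ x ∈ X, side x = σ) →
      EM side μ c (fun z => hQ A μ X z * Real.log (hQ A μ X z)) = d σ X.card)
    {U : Finset V} {F : Set (Finset V × Finset V)} {β : Bool → ℕ → ℝ}
    (hb : FBuilt H side U F β) :
    ∃ ρ L : (V → S) → ℝ, LawF H side A μ c U ρ L (bal d M β) ∧
      ∀ p ∈ F, FanL H side A μ c U ρ p.1 p.2 := by
  induction hb with
  | point v =>
    refine ⟨fun _ => 1, fun _ => 1, ?_, ?_⟩
    · have e : bal d M (fun _ _ => 0) = 0 := by
        unfold bal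
        simp
      rw [e]
      exact (law_point h H side v).lawF
    · intro p hp
      rw [Set.mem_singleton_iff] at hp
      subst hp
      exact fanL_point h H v
  | @early U F β v R hb hv hR hder ih =>
    obtain ⟨ρ, L, hl, hF⟩ := ih
    have hf := fanL_of_der h hs hF hder
    have hRU : R ⊆ U := Finset.subset_union_left.trans hf.sub
    have hp := hf.pos h hl.nonneg (Finset.Subset.refl R)
    have hadj : ∀ i ∈ R, H.Adj v i := fun i hi => (hR i (hRU hi)).2 hi
    have hsR : ∀ i ∈ R, side i = !(side v) := by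
      intro i hi
      have := hs _ _ (hadj i hi)
      cases h1 : side v <;> cases h2 : side i <;> simp_all
    have hMM : MM side A μ c ρ R = d (!(side v)) R.card := by
      rw [hf.star h hs (Finset.Subset.refl R) hf.ne]
      exact hf.dd h hs d0 hd hl.one hsR (Finset.Subset.refl R)
    obtain ⟨i, hi⟩ := hf.ne
    have hsd : side i ≠ side v := (hs _ _ (hadj i hi)).symm
    have e1 : bal d M (fun σ m => β σ m + if σ = side v then 0 else ((R.card + 1 - m : ℕ) : ℝ)) =
        bal d M β + d (!(side v)) R.card := by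
      rw [bal_add' d M β (side v) fun m => ((R.card + 1 - m : ℕ) : ℝ)]
      rw [seq_val (d (!(side v))) (d0 _) (d1 _) (M (!(side v))) R.card (hM _ R hsR)]
    rw [e1]
    refine ⟨_, _, hl.attach h hs hv ⟨i, hi⟩ hRU hR hp hMM.ge, ?_⟩
    rintro ⟨Y, E⟩ ((hpF | ⟨X, E', h1, h2, h3⟩) | ⟨X, E', u, h1, h2, h3, h4, h5⟩)
    · exact (hF _ hpF).keep h hl.dep hv hRU hi hsd hp
    · rw [Prod.mk.injEq] at h3
      obtain ⟨rfl, rfl⟩ := h3
      exact (fanL_of_der h hs hF h1).addE h hs hl.dep hv ⟨i, hi⟩ hR h2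
    · rw [Prod.mk.injEq] at h5
      obtain ⟨rfl, rfl⟩ := h5
      subst h2
      exact (fanL_of_der h hs hF h1).addX h hs hl.dep hv hR h3 h4
  | @late U F β w R X E C T Q hb hw hR hder hRE hRn hCX hCn hadj hQu hT ih =>
    obtain ⟨ρ, L, hl, hF⟩ := ih
    have hf := fanL_of_der h hs hF hder
    have hRU : R ⊆ U := hRE.trans (Finset.subset_union_right.trans hf.sub)
    have htr : ∀ u ∈ R, tr H X u = Q u := by
      intro u hu
      ext a
      rw [mem_tr, hQu u hu]
    have hC : ∀ u ∈ R, C ⊆ tr H X u := fun u hu a ha => mem_tr.2 ⟨hCX ha, hadj u hu a ha⟩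
    have hTX : T ⊆ X := fun a ha => ((hT a).1 ha).1
    have htT : ∀ u ∈ R, tr H X u ⊆ T := fun u hu a ha =>
      (hT a).2 ⟨(mem_tr.1 ha).1, u, hu, (mem_tr.1 ha).2⟩
    obtain ⟨a, ha⟩ := id hCn
    obtain ⟨r, hr⟩ := id hRn
    have hp : ∀ z : V → S, (∏ v, mm side μ c v (z v)) ≠ 0 → ρ z ≠ 0 → 0 < hQ A μ R z :=
      fun z hz h0 => Books.hQ_pos h (x := z a) fun u hu => by
        have := hf.kp h hl.nonneg z hz h0 u (hRE hu) a (hC u hu ha)
        rw [kk_symm h] at this
        exact this.ne'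
    have hwr : H.Adj w r := (hR r (hRU hr)).2 hr
    have hsd : side r ≠ side w := (hs _ _ hwr).symm
    have hσ : ∀ x ∈ X, side x = side w := fun x hx =>
      bool_eq (hf.sd hs r (hRE hr) x hx) hsd.symm
    have hdd : ∀ P ⊆ X, DD side μ c ρ P = d (side w) P.card := fun P hP =>
      hf.dd h hs d0 hd hl.one hσ hP
    have hlow := hf.low h hs hl.nonneg hl.one hRE hRn hC hTX htT
    have hc0 : (0 : ℝ) < C.card := Nat.cast_pos.2 (Finset.card_pos.2 hCn)
    have hCT : C ⊆ T := (hC r hr).trans (htT r hr)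
    have e2 : ∑ u ∈ R, (DD side μ c ρ (tr H X u) - DD side μ c ρ (tr H X u \ C)) =
        ∑ u ∈ R, (d (side w) (Q u).card - d (side w) ((Q u).card - C.card)) := by
      refine Finset.sum_congr rfl fun u hu => ?_
      rw [hdd _ (tr_sub H X u), hdd _ (Finset.sdiff_subset.trans (tr_sub H X u)),
        Finset.card_sdiff_of_subset (hC u hu), htr u hu]
    rw [e2, hdd _ hTX, hdd _ (Finset.sdiff_subset.trans hTX), Finset.card_sdiff_of_subset hCT,
      mul_comm] at hlow
    have hG := (div_le_iff₀ hc0).2 hlow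
    have hXM : X.card ≤ M (side w) + 1 := hM _ X hσ
    have hTM : T.card ≤ M (side w) + 1 := (Finset.card_le_card hTX).trans hXM
    have e3 : (∑ u ∈ R, (d (side w) (Q u).card - d (side w) ((Q u).card - C.card)) -
        (d (side w) T.card - d (side w) (T.card - C.card))) / C.card =
        ∑ j ∈ range (M (side w)), (d (side w) (j + 2) - 2 * d (side w) (j + 1) +
          d (side w) j) * ((∑ u ∈ R, ((min C.card ((Q u).card + 1 - (j + 2)) : ℕ) : ℝ) -
            ((min C.card (T.card + 1 - (j + 2)) : ℕ) : ℝ)) / C.card) := by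
      have e4 : ∀ u ∈ R, d (side w) (Q u).card - d (side w) ((Q u).card - C.card) =
          ∑ j ∈ range (M (side w)), (d (side w) (j + 2) - 2 * d (side w) (j + 1) +
            d (side w) j) * ((min C.card ((Q u).card + 1 - (j + 2)) : ℕ) : ℝ) := by
        intro u hu
        refine seq_dif (d (side w)) (d0 _) (d1 _) (M (side w)) _ _ ?_ ?_
        · rw [← htr u hu]
          exact (Finset.card_le_card (tr_sub H X u)).trans hXM
        · rw [← htr u hu]
          exact Finset.card_le_card (hC u hu)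
      rw [Finset.sum_congr rfl e4, Finset.sum_comm,
        seq_dif (d (side w)) (d0 _) (d1 _) (M (side w)) T.card C.card hTM
          (Finset.card_le_card hCT), ← Finset.sum_sub_distrib, Finset.sum_div]
      refine Finset.sum_congr rfl fun j _ => ?_
      rw [← Finset.mul_sum, ← mul_sub, mul_div_assoc]
    have e1 := bal_add d M β (side w) fun m =>
      (∑ u ∈ R, ((min C.card ((Q u).card + 1 - m) : ℕ) : ℝ) -
        ((min C.card (T.card + 1 - m) : ℕ) : ℝ)) / C.card
    rw [← e3] at e1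
    rw [e1]
    refine ⟨_, _, hl.attach h hs hw hRn hRU hR hp hG, ?_⟩
    intro p hpF
    exact (hF p hpF).keep h hl.dep hw hRU hr hsd hp
  | @pendant U F β u v hb hv hu hR ih =>
    obtain ⟨ρ, L, hl, hF⟩ := ih
    have hR' : ∀ x ∈ U, H.Adj v x ↔ x ∈ ({u} : Finset V) := by
      intro x hx
      rw [mem_singleton]
      exact hR x hx
    have hRU : ({u} : Finset V) ⊆ U := Finset.singleton_subset_iff.2 hu
    have hlog : (0 : ℝ) ≤ MM side A μ c ρ {u} := by
      refine le_of_eq ?_
      unfold MM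
      simp only [hQ_singleton h, Real.log_one, mul_zero]
      unfold EM
      simp
    have h1 := hl.attach h hs hv (singleton_nonempty u) hRU hR' (hQ_one_pos h u) hlog
    rw [add_zero] at h1
    refine ⟨_, _, h1, ?_⟩
    intro p hpF
    exact (hF p hpF).keep h hl.dep hv hRU (mem_singleton_self u)
      ((hs v u ((hR u hu).2 rfl)).symm) (hQ_one_pos h u)

end FanSound

end Vale.Agent.P050.Books
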