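import Vale.Agent.P050.R4.H422.FanSound
import Vale.Agent.P050.R4.H987.DUniv

/-!
# P050: graphs built with fans satisfy the two-sided Sidorenko inequality
-/

namespace Vale.Agent.P050.Books

open Finset Vale.Agent.P050.Lev Vale.Agent.P050.Ears

theorem exists_dd_all {V S : Type} [Fintype V] [DecidableEq V] [Fintype S] (side : V → Bool)
    {A : Matrix S S ℝ} {μ : S → ℝ} {c : S → Bool} (h : Rev A μ c) (σ : Bool) :
    ∃ d : ℕ → ℝ, d 0 = 0 ∧ d 1 = 0 ∧ (∀ k, k + 2 ≤ (univ.filter fun v => side v = σ).card →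
      2 * d (k + 1) ≤ d k + d (k + 2)) ∧ ∀ X : Finset V, X.Nonempty → (∀ x ∈ X, side x = σ) →
      EM side μ c (fun z => hQ A μ X z * Real.log (hQ A μ X z)) = d X.card := by
  by_cases hne : ∃ v, side v = σ
  · exact exists_dd_univ h σ hne
  · refine ⟨fun _ => 0, rfl, rfl, fun _ _ => by simp, fun X hX hσ => ?_⟩
    obtain ⟨x, hx⟩ := hX
    exact absurd ⟨x, hσ x hx⟩ hne

/-- The Sidorenko inequality for reversible chains, for graphs built with fans. -/
theorem fans_wt {V S : Type} [Fintype V] [DecidableEq V] [Fintype S]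
    {side : V → Bool} {A : Matrix S S ℝ} {μ : S → ℝ} {c : S → Bool} (h : Rev A μ c)
    {H : SimpleGraph V} (hs : ∀ u v, H.Adj u v → side u ≠ side v)
    {F : Set (Finset V × Finset V)} {β : Bool → ℕ → ℝ} (hb : FBuilt H side univ F β)
    (hβ : ∀ σ m, 2 ≤ m → 0 ≤ β σ m) : 1 ≤ ∑ z : V → S, wt H side A μ c z := by
  choose d d0 d1 dc dd using exists_dd_all side h
  obtain ⟨ρ, L, hl, -⟩ := fans_sound (side := side) h hs d0 d1
    (M := fun σ => (univ.filter fun v => side v = σ).card - 1) (fun σ X hX => by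
      have h1 : X.card ≤ (univ.filter fun v => side v = σ).card :=
        Finset.card_le_card fun x hx => mem_filter.2 ⟨mem_univ x, hX x hx⟩
      omega) dd hb
  refine (hl.law ?_).sum_wt_ge h
  unfold bal
  refine Finset.sum_nonneg fun σ _ => Finset.sum_nonneg fun j hj => ?_
  refine mul_nonneg ?_ (hβ σ (j + 2) (by omega))
  have hj' : j < (univ.filter fun v => side v = σ).card - 1 := mem_range.1 hj
  have h1 := dc σ j (by omega)
  linarith

/-- Graphs built with fans with nonnegative balance satisfy the two-sided Sidorenko inequality. -/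
theorem gsid_of_fans {V : Type} [Fintype V] [DecidableEq V] {H : SimpleGraph V}
    {side : V → Bool} (hs : ∀ u v, H.Adj u v → side u ≠ side v) (hi : ∀ v, ∃ u, H.Adj v u)
    {F : Set (Finset V × Finset V)} {β : Bool → ℕ → ℝ} (hb : FBuilt H side univ F β)
    (hβ : ∀ σ m, 2 ≤ m → 0 ≤ β σ m) : GSid H side :=
  gsid_of_rev H side hs hi fun _ _ _ _ _ _ _ h => fans_wt h hs hb hβ

end Vale.Agent.P050.Books
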