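import Vale.Agent.P050.R4.H422.FanDef2
import Vale.Agent.P050.R4.H422.FanNew2
import Vale.Agent.P050.R4.H422.Fans

/-!
# P050: the Sidorenko inequality for graphs built with fans, leaves and copies
-/

set_option linter.unusedSectionVars false

namespace Vale.Agent.P050.Books

open Finset Vale.Agent.P050.Lev Vale.Agent.P050.Ears

section FanSound2

variable {V S : Type} [Fintype V] [DecidableEq V] [Fintype S]
  {side : V → Bool} {A : Matrix S S ℝ} {μ : S → ℝ} {c : S → Bool}

/-- the empty law -/
theorem lawG_empty (h : Rev A μ c) (H : SimpleGraph V) (side : V → Bool) :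
    LawG H side A μ c ∅ (fun _ => 1) (fun _ => 1) 0 where
  dep := fun _ _ _ => rfl
  depL := fun _ _ _ => rfl
  nonneg := fun _ => zero_le_one
  mul := by
    classical
    intro z _
    unfold edgeW
    rw [Finset.prod_eq_one, one_mul]
    rintro ⟨a, b⟩ he
    simp at he
  pos := fun _ _ _ => zero_lt_one
  one := EM_one h
  log := by
    simp only [Real.log_one, mul_zero]
    exact EM_nonneg h fun _ => le_rfl

/-- SOUNDNESS of the fan calculus with leaves and copies -/
theorem fans_sound2 (h : Rev A μ c) {H : SimpleGraph V}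
    (hs : ∀ u v, H.Adj u v → side u ≠ side v) {d : Bool → ℕ → ℝ} (d0 : ∀ σ, d σ 0 = 0)
    (d1 : ∀ σ, d σ 1 = 0) {M : Bool → ℕ}
    (hM : ∀ σ (X : Finset V), (∀ x ∈ X, side x = σ) → X.card ≤ M σ + 1)
    (hd : ∀ σ (X : Finset V), X.Nonempty → (∀ x ∈ X, side x = σ) →
      EM side μ c (fun z => hQ A μ X z * Real.log (hQ A μ X z)) = d σ X.card)
    {U : Finset V} {F : Set (Finset V × Finset V)} {β : Bool → ℕ → ℝ}
    (hb : FanBuilt H side U F β) :
    ∃ ρ L : (V → S) → ℝ, LawG H side A μ c U ρ L (bal d M β) ∧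
      ∀ p ∈ F, FanL H side A μ c U ρ p.1 p.2 := by
  induction hb with
  | start =>
    refine ⟨fun _ => 1, fun _ => 1, ?_, fun p hp => absurd hp (Set.notMem_empty p)⟩
    have e : bal d M (fun _ _ => 0) = 0 := by
      unfold bal
      simp
    rw [e]
    exact lawG_empty h H side
  | @early U F β v R hb hv hR hder ih =>
    obtain ⟨ρ, L, hl, hF⟩ := ih
    have hf := fanL_of_der h hs hF hder
    have hRU : R ⊆ U := Finset.subset_union_left.trans hf.sub
    have hp := hf.pos h hl.nonneg (Finset.Subset.refl R)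
    have hadj : ∀ i ∈ R, H.Adj v i := fun i hi => (hR i (hRU hi)).2 hi
    have hsR : ∀ i ∈ R, side i = !(side v) := by
      intro i hi
      have := hs _ _ (hadj i hi)
      cases h1 : side v <;> cases h2 : side i <;> simp_all
    have hMM : MM side A μ c ρ R = d (!(side v)) R.card := by
      rw [hf.star h hs (Finset.Subset.refl R) hf.ne]
      exact hf.dd h hs d0 hd hl.one hsR (Finset.Subset.refl R)
    obtain ⟨i, hi⟩ := hf.ne
    have hsd : side i ≠ side v := (hs _ _ (hadj i hi)).symm
    have e1 : bal d M (fun σ m => β σ m + if σ = side v then 0 else ((R.card + 1 - m : ℕ) : ℝ)) =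
        bal d M β + d (!(side v)) R.card := by
      rw [bal_add' d M β (side v) fun m => ((R.card + 1 - m : ℕ) : ℝ)]
      rw [seq_val (d (!(side v))) (d0 _) (d1 _) (M (!(side v))) R.card (hM _ R hsR)]
    rw [e1]
    refine ⟨_, _, hl.attach h hs hv ⟨i, hi⟩ hRU hR hp hMM.ge, ?_⟩
    rintro ⟨Y, E⟩ ((hpF | ⟨X, E', h1, h2, h3⟩) | ⟨X, E', u, h1, h2, h3, h4, h5⟩)
    · exact (hF _ hpF).keep h hl.dep hv hRU hi hsd hp
    · rw [Prod.mk.injEq] at h3
      obtain ⟨rfl, rfl⟩ := h3
      exact (fanL_of_der h hs hF h1).addE h hs hl.dep hv ⟨i, hi⟩ hR h2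
    · rw [Prod.mk.injEq] at h5
      obtain ⟨rfl, rfl⟩ := h5
      subst h2
      exact (fanL_of_der h hs hF h1).addX h hs hl.dep hv hR h3 h4
  | @late U F β w R X E C T Q hb hw hR hder hRE hRn hCX hCn hadj hQu hT ih =>
    obtain ⟨ρ, L, hl, hF⟩ := ih
    have hf := fanL_of_der h hs hF hder
    have hRU : R ⊆ U := hRE.trans (Finset.subset_union_right.trans hf.sub)
    have htr : ∀ u ∈ R, tr H X u = Q u := by
      intro u hu
      ext a
      rw [mem_tr, hQu u hu]
    have hC : ∀ u ∈ R, C ⊆ tr H X u := fun u hu a ha => mem_tr.2 ⟨hCX ha, hadj u hu a ha⟩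
    have hTX : T ⊆ X := fun a ha => ((hT a).1 ha).1
    have htT : ∀ u ∈ R, tr H X u ⊆ T := fun u hu a ha =>
      (hT a).2 ⟨(mem_tr.1 ha).1, u, hu, (mem_tr.1 ha).2⟩
    obtain ⟨a, ha⟩ := id hCn
    obtain ⟨r, hr⟩ := id hRn
    have hp : ∀ z : V → S, (∏ v, mm side μ c v (z v)) ≠ 0 → ρ z ≠ 0 → 0 < hQ A μ R z :=
      fun z hz h0 => Books.hQ_pos h (x := z a) fun u hu => by
        have := hf.kp h hl.nonneg z hz h0 u (hRE hu) a (hC u hu ha)
        rw [kk_symm h] at this
        exact this.ne'
    have hwr : H.Adj w r := (hR r (hRU hr)).2 hr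
    have hsd : side r ≠ side w := (hs _ _ hwr).symm
    have hσ : ∀ x ∈ X, side x = side w := fun x hx =>
      bool_eq (hf.sd hs r (hRE hr) x hx) hsd.symm
    have hdd : ∀ P ⊆ X, DD side μ c ρ P = d (side w) P.card := fun P hP =>
      hf.dd h hs d0 hd hl.one hσ hP
    have hlow := hf.low h hs hl.nonneg hl.one hRE hRn hC hTX htT
    have hc0 : (0 : ℝ) < C.card := Nat.cast_pos.2 (Finset.card_pos.2 hCn)
    have hCT : C ⊆ T := (hC r hr).trans (htT r hr)
    have e2 : ∑ u ∈ R, (DD side μ c ρ (tr H X u) - DD side μ c ρ (tr H X u \ C)) =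
        ∑ u ∈ R, (d (side w) (Q u).card - d (side w) ((Q u).card - C.card)) := by
      refine Finset.sum_congr rfl fun u hu => ?_
      rw [hdd _ (tr_sub H X u), hdd _ (Finset.sdiff_subset.trans (tr_sub H X u)),
        Finset.card_sdiff_of_subset (hC u hu), htr u hu]
    rw [e2, hdd _ hTX, hdd _ (Finset.sdiff_subset.trans hTX), Finset.card_sdiff_of_subset hCT,
      mul_comm] at hlow
    have hG := (div_le_iff₀ hc0).2 hlow
    have hXM : X.card ≤ M (side w) + 1 := hM _ X hσ
    have hTM : T.card ≤ M (side w) + 1 := (Finset.card_le_card hTX).trans hXM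
    have e3 : (∑ u ∈ R, (d (side w) (Q u).card - d (side w) ((Q u).card - C.card)) -
        (d (side w) T.card - d (side w) (T.card - C.card))) / C.card =
        ∑ j ∈ range (M (side w)), (d (side w) (j + 2) - 2 * d (side w) (j + 1) +
          d (side w) j) * ((∑ u ∈ R, ((min C.card ((Q u).card + 1 - (j + 2)) : ℕ) : ℝ) -
            ((min C.card (T.card + 1 - (j + 2)) : ℕ) : ℝ)) / C.card) := by
      have e4 : ∀ u ∈ R, d (side w) (Q u).card - d (side w) ((Q u).card - C.card) =
          ∑ j ∈ range (M (side w)), (d (side w) (j + 2) - 2 * d (side w) (j + 1) +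
            d (side w) j) * ((min C.card ((Q u).card + 1 - (j + 2)) : ℕ) : ℝ) := by
        intro u hu
        refine seq_dif (d (side w)) (d0 _) (d1 _) (M (side w)) _ _ ?_ ?_
        · rw [← htr u hu]
          exact (Finset.card_le_card (tr_sub H X u)).trans hXM
        · rw [← htr u hu]
          exact Finset.card_le_card (hC u hu)
      rw [Finset.sum_congr rfl e4, Finset.sum_comm,
        seq_dif (d (side w)) (d0 _) (d1 _) (M (side w)) T.card C.card hTM
          (Finset.card_le_card hCT), ← Finset.sum_sub_distrib, Finset.sum_div]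
      refine Finset.sum_congr rfl fun j _ => ?_
      rw [← Finset.mul_sum, ← mul_sub, mul_div_assoc]
    have e1 := bal_add d M β (side w) fun m =>
      (∑ u ∈ R, ((min C.card ((Q u).card + 1 - m) : ℕ) : ℝ) -
        ((min C.card (T.card + 1 - m) : ℕ) : ℝ)) / C.card
    rw [← e3] at e1
    rw [e1]
    refine ⟨_, _, hl.attach h hs hw hRn hRU hR hp hG, ?_⟩
    intro p hpF
    exact (hF p hpF).keep h hl.dep hw hRU hr hsd hp
  | @pendant U F β u v hb hv hu hR ih =>
    obtain ⟨ρ, L, hl, hF⟩ := ih
    have hR' : ∀ x ∈ U, H.Adj v x ↔ x ∈ ({u} : Finset V) := by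
      intro x hx
      rw [mem_singleton]
      exact hR x hx
    have hRU : ({u} : Finset V) ⊆ U := Finset.singleton_subset_iff.2 hu
    have hlog : (0 : ℝ) ≤ MM side A μ c ρ {u} := by
      refine le_of_eq ?_
      unfold MM
      simp only [hQ_singleton h, Real.log_one, mul_zero]
      unfold EM
      simp
    have h1 := hl.attach h hs hv (singleton_nonempty u) hRU hR' (hQ_one_pos h u) hlog
    rw [add_zero] at h1
    refine ⟨_, _, h1, ?_⟩
    intro p hpF
    exact (hF p hpF).keep h hl.dep hv hRU (mem_singleton_self u)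
      ((hs v u ((hR u hu).2 rfl)).symm) (hQ_one_pos h u)

  | @leaf U F β v X E hb hv hR hder hsX ih =>
    obtain ⟨ρ, L, hl, hF⟩ := ih
    have hfd : FanL H side A μ c U ρ X E ∨ (X = ∅ ∧ E = ∅) :=
      hder.imp (fun hd' => fanL_of_der h hs hF hd') id
    have hXE : X ∪ E ⊆ U := by
      rcases hfd with hf | ⟨rfl, rfl⟩
      · exact hf.sub
      · simp
    have hE : ∀ u ∈ E, ¬ H.Adj u v := fun u hu hadj =>
      hR u (hXE (mem_union_right _ hu)) hadj.symm
    have hlaw : ∀ f : (V → S) → ℝ, DepOn (X ∪ E) f → EM side μ c (fun z => ρ z * f z) =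
        EM side μ c (fun z => gi side μ c v (fdens H A μ (insert v X) E) z * f z) := by
      rcases hfd with hf | ⟨rfl, rfl⟩
      · exact leaf_law h hs hf hv hsX hE
      · intro f hfd
        have hconst : ∃ k : ℝ, ∀ z, f z = k := by
          by_cases hne : Nonempty (V → S)
          · obtain ⟨z₀⟩ := hne
            exact ⟨f z₀, fun z => hfd z z₀ (by simp)⟩
          · exact ⟨0, fun z => absurd ⟨z⟩ hne⟩
        obtain ⟨k, hk⟩ := hconst
        have e1 : ∀ z, gi side μ c v (fdens H A μ (insert v ∅) ∅) z = 1 := by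
          intro z
          unfold gi fdens
          have e2 : ∀ x, hQ A μ (insert v ∅) (Function.update z v x) = 1 := by
            intro x
            have e3 : insert v (∅ : Finset V) = {v} := by
              ext y
              simp
            rw [e3, hQ_singleton h]
          simp only [e2, Finset.prod_empty, mul_one]
          exact mm_sum h v
        simp only [hk, e1]
        have e4 : EM side μ c (fun z => ρ z * k) = k * EM side μ c ρ := by
          rw [← EM_smul]
          exact EM_congr fun z _ => mul_comm _ _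
        have e5 : EM side μ c (fun _ : V → S => (1 : ℝ) * k) = k * EM side μ c (fun _ => 1) := by
          rw [← EM_smul]
          exact EM_congr fun z _ => mul_comm _ _
        rw [e4, e5, hl.one, EM_one h]
    have htn : ∀ u ∈ E, (tr H (insert v X) u).Nonempty := by
      rcases hfd with hf | ⟨rfl, rfl⟩
      · intro u hu
        obtain ⟨x, hx⟩ := hf.tn u hu
        exact ⟨x, mem_tr.2 ⟨mem_insert_of_mem (mem_tr.1 hx).1, (mem_tr.1 hx).2⟩⟩
      · simp
    obtain ⟨ρ', L', h1, h2, h3⟩ := fan_new (N := ∅) h hs d0 hd hl hv hXE hsX htn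
      (fun u => ⟨fun hu => absurd hu (Finset.notMem_empty u), fun hu => absurd hu.2 (hE u hu.1)⟩)
      (fun x hx => ⟨fun hadj => absurd hadj (hR x hx), fun hx' =>
        absurd hx' (Finset.notMem_empty x)⟩) hlaw
    have hcard : X.card + 1 ≤ M (side v) + 1 := by
      rw [← Finset.card_insert_of_notMem fun hm => hv (hXE (mem_union_left _ hm))]
      refine hM (side v) (insert v X) fun x hx => ?_
      rcases mem_insert.1 hx with rfl | hx
      · rfl
      · exact hsX x hx
    have e1 := bal_add d M β (side v) fun m => (0 : ℝ) - (if m ≤ X.card + 1 then 1 else 0)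
    have e2 : ∑ u ∈ (∅ : Finset V), (d (side v) ((tr H X u).card + 1) -
        d (side v) (tr H X u).card) - (d (side v) (X.card + 1) - d (side v) X.card) =
        ∑ j ∈ range (M (side v)), (d (side v) (j + 2) - 2 * d (side v) (j + 1) +
          d (side v) j) * ((0 : ℝ) - (if j + 2 ≤ X.card + 1 then 1 else 0)) := by
      rw [Finset.sum_empty, seq_inc (d (side v)) (d0 _) (d1 _) (M (side v)) X.card (by omega),
        zero_sub, ← Finset.sum_neg_distrib]
      refine Finset.sum_congr rfl fun j _ => ?_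
      split_ifs <;> simp
    rw [e2] at h1
    rw [e1]
    refine ⟨ρ', L', h1, ?_⟩
    intro p hp
    rcases Set.mem_insert_iff.1 hp with rfl | hp
    · exact h2
    · exact h3 _ _ (hF p hp)
  | @copy U F β i v X E R Q hb hv hsi hiX hder hRi hRv hQu ih =>
    obtain ⟨ρ, L, hl, hF⟩ := ih
    have hf := fanL_of_der h hs hF hder
    have hXE : X ∪ E ⊆ U := (Finset.union_subset_union_left (Finset.subset_insert i X)).trans
      hf.sub
    have hE : ∀ u ∈ E, (H.Adj u v ↔ H.Adj u i) := by
      intro u hu
      have h1 := hRv u (hXE (mem_union_right _ hu))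
      constructor
      · intro h2
        exact ((hRi u).1 (h1.1 h2.symm)).2
      · intro h2
        exact (h1.2 ((hRi u).2 ⟨hu, h2⟩)).symm
    have hvX : v ∉ X := fun hm => hv (hXE (mem_union_left _ hm))
    have hsX : ∀ x ∈ X, side x = side v := fun x hx => by
      rw [← hsi]
      exact hf.sx x (mem_insert_of_mem hx) i (mem_insert_self _ _)
    have hlaw := copy_law h hs hf hiX hv hsi hE
    have htn : ∀ u ∈ E, (tr H (insert v X) u).Nonempty := by
      intro u hu
      obtain ⟨x, hx⟩ := hf.tn u hu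
      obtain ⟨h1, h2⟩ := mem_tr.1 hx
      rcases mem_insert.1 h1 with rfl | h1
      · exact ⟨v, mem_tr.2 ⟨mem_insert_self _ _, (hE u hu).2 h2⟩⟩
      · exact ⟨x, mem_tr.2 ⟨mem_insert_of_mem h1, h2⟩⟩
    obtain ⟨ρ', L', h1, h2, h3⟩ := fan_new (N := R) h hs d0 hd hl hv hXE hsX htn
      (fun u => (hRi u).trans ⟨fun h4 => ⟨h4.1, (hE u h4.1).2 h4.2⟩,
        fun h4 => ⟨h4.1, (hE u h4.1).1 h4.2⟩⟩) hRv hlaw
    have hcard : X.card + 1 ≤ M (side v) + 1 := by
      rw [← Finset.card_insert_of_notMem hvX]
      refine hM (side v) (insert v X) fun x hx => ?_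
      rcases mem_insert.1 hx with rfl | hx
      · rfl
      · exact hsX x hx
    have hQc : ∀ u ∈ R, (Q u).card = (tr H X u).card + 1 := by
      intro u hu
      have h4 : Q u = insert i (tr H X u) := by
        ext x
        rw [hQu u hu, mem_insert, mem_insert, mem_tr]
        constructor
        · rintro ⟨rfl | h5, h6⟩
          · exact Or.inl rfl
          · exact Or.inr ⟨h5, h6⟩
        · rintro (rfl | ⟨h5, h6⟩)
          · exact ⟨Or.inl rfl, ((hRi u).1 hu).2⟩
          · exact ⟨Or.inr h5, h6⟩
      rw [h4, Finset.card_insert_of_notMem fun hm => hiX (mem_tr.1 hm).1]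
    have e1 := bal_add d M β (side v) fun m =>
      (∑ u ∈ R, (if m ≤ (Q u).card then 1 else 0)) - (if m ≤ X.card + 1 then 1 else 0)
    have e2 : ∑ u ∈ R, (d (side v) ((tr H X u).card + 1) -
        d (side v) (tr H X u).card) - (d (side v) (X.card + 1) - d (side v) X.card) =
        ∑ j ∈ range (M (side v)), (d (side v) (j + 2) - 2 * d (side v) (j + 1) +
          d (side v) j) * ((∑ u ∈ R, (if j + 2 ≤ (Q u).card then 1 else 0)) -
            (if j + 2 ≤ X.card + 1 then 1 else 0)) := by
      have e3 : ∀ u ∈ R, d (side v) ((tr H X u).card + 1) - d (side v) (tr H X u).card =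
          ∑ j ∈ range (M (side v)), (d (side v) (j + 2) - 2 * d (side v) (j + 1) +
            d (side v) j) * (if j + 2 ≤ (Q u).card then 1 else 0) := by
        intro u hu
        have h5 : (tr H X u).card ≤ X.card := Finset.card_le_card (tr_sub H X u)
        rw [seq_inc (d (side v)) (d0 _) (d1 _) (M (side v)) (tr H X u).card (by omega), hQc u hu]
        refine Finset.sum_congr rfl fun j _ => ?_
        split_ifs <;> simp
      rw [Finset.sum_congr rfl e3, Finset.sum_comm,
        seq_inc (d (side v)) (d0 _) (d1 _) (M (side v)) X.card (by omega),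
        ← Finset.sum_sub_distrib]
      refine Finset.sum_congr rfl fun j _ => ?_
      rw [← Finset.mul_sum, ← mul_sub]
      congr 2
      split_ifs <;> simp
    rw [e2] at h1
    rw [e1]
    refine ⟨ρ', L', h1, ?_⟩
    intro p hp
    rcases Set.mem_insert_iff.1 hp with rfl | hp
    · exact h2
    · exact h3 _ _ (hF p hp)

end FanSound2

/-- The Sidorenko inequality for reversible chains, for graphs built with fans. -/
theorem fans_wt2 {V S : Type} [Fintype V] [DecidableEq V] [Fintype S]
    {side : V → Bool} {A : Matrix S S ℝ} {μ : S → ℝ} {c : S → Bool} (h : Rev A μ c)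
    {H : SimpleGraph V} (hs : ∀ u v, H.Adj u v → side u ≠ side v)
    {F : Set (Finset V × Finset V)} {β : Bool → ℕ → ℝ} (hb : FanBuilt H side univ F β)
    (hβ : ∀ σ m, 2 ≤ m → 0 ≤ β σ m) : 1 ≤ ∑ z : V → S, wt H side A μ c z := by
  choose d d0 d1 dc dd using exists_dd_all side h
  obtain ⟨ρ, L, hl, -⟩ := fans_sound2 (side := side) h hs d0 d1
    (M := fun σ => (univ.filter fun v => side v = σ).card - 1) (fun σ X hX => by
      have h1 : X.card ≤ (univ.filter fun v => side v = σ).card :=
        Finset.card_le_card fun x hx => mem_filter.2 ⟨mem_univ x, hX x hx⟩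
      omega) dd hb
  refine hl.sum_wt_ge h ?_
  unfold bal
  refine Finset.sum_nonneg fun σ _ => Finset.sum_nonneg fun j hj => ?_
  refine mul_nonneg ?_ (hβ σ (j + 2) (by omega))
  have hj' : j < (univ.filter fun v => side v = σ).card - 1 := mem_range.1 hj
  have h1 := dc σ j (by omega)
  linarith

/-- Graphs built with fans, leaves and copies with nonnegative balance satisfy the two-sided
Sidorenko inequality. -/
theorem gsid_of_fanBuilt {V : Type} [Fintype V] [DecidableEq V] {H : SimpleGraph V}
    {side : V → Bool} (hs : ∀ u v, H.Adj u v → side u ≠ side v) (hi : ∀ v, ∃ u, H.Adj v u)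
    {F : Set (Finset V × Finset V)} {β : Bool → ℕ → ℝ} (hb : FanBuilt H side univ F β)
    (hβ : ∀ σ m, 2 ≤ m → 0 ≤ β σ m) : GSid H side :=
  gsid_of_rev H side hs hi fun _ _ _ _ _ _ _ h => fans_wt2 h hs hb hβ

end Vale.Agent.P050.Books
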