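import Vale.Agent.P050.R4.H987.DUniv

/-!
# P050: chains with an involution which exchanges the colours, one sequence of relative entropies
for both sides
-/

set_option linter.unusedSectionVars false

namespace Vale.Agent.P050.Books

open Finset Vale.Agent.P050.Lev Vale.Agent.P050.Ears

section Sym2

variable {S : Type} [Fintype S] {A : Matrix S S ℝ} {μ : S → ℝ} {c : S → Bool}

/-- averages of functions of some of the vertices -/
theorem EM_embed {V V' : Type} [Fintype V] [DecidableEq V] [Fintype V'] [DecidableEq V']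
    (h : Rev A μ c) {side : V → Bool} {side' : V' → Bool} {ι : V → V'}
    (hι : Function.Injective ι) (hside : ∀ v, side' (ι v) = side v) (f : (V → S) → ℝ) :
    EM side' μ c (fun z => f (z ∘ ι)) = EM side μ c f := by
  classical
  have key : ∀ x : V → S, ∑ z : V' → S, (∏ v, mm side' μ c v (z v)) *
      (if z ∘ ι = x then (1 : ℝ) else 0) = ∏ v, mm side μ c v (x v) := by
    intro x
    let g : V' → S → ℝ := fun v' s => if ∀ v, ι v = v' → s = x v then 1 else 0
    have e1 : ∀ z : V' → S, (if z ∘ ι = x then (1 : ℝ) else 0) = ∏ v, g v (z v) := by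
      intro z
      by_cases hz : z ∘ ι = x
      · rw [if_pos hz]
        refine (Finset.prod_eq_one fun v' _ => ?_).symm
        refine if_pos ?_
        rintro v rfl
        exact congrFun hz v
      · rw [if_neg hz]
        have h1 : ∃ v, z (ι v) ≠ x v := by
          by_contra hcon
          push Not at hcon
          exact hz (funext hcon)
        obtain ⟨v, hv⟩ := h1
        refine (Finset.prod_eq_zero (mem_univ (ι v)) ?_).symm
        exact if_neg fun hall => hv (hall v rfl)
    have e2 : ∑ z : V' → S, (∏ v, mm side' μ c v (z v)) *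
        (if z ∘ ι = x then (1 : ℝ) else 0) =
        ∑ z : V' → S, ∏ v, (mm side' μ c v (z v) * g v (z v)) := by
      refine Finset.sum_congr rfl fun z _ => ?_
      rw [e1, Finset.prod_mul_distrib]
    have e3 := Finset.prod_univ_sum (fun _ : V' => (univ : Finset S))
      fun v s => mm side' μ c v s * g v s
    rw [e2, ← Fintype.piFinset_univ, ← e3]
    refine (Fintype.prod_of_injective ι hι _ _ ?_ ?_).symm
    · intro v' hv'
      have e4 : ∀ s, g v' s = 1 := fun s => if_pos fun v hv => absurd ⟨v, hv⟩ hv'
      simp only [e4, mul_one]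
      exact mm_sum h v'
    · intro v
      have e4 : ∀ s, g (ι v) s = if s = x v then 1 else 0 := by
        intro s
        by_cases hs : s = x v
        · rw [if_pos hs]
          refine if_pos fun w hw => ?_
          rw [hι hw]
          exact hs
        · rw [if_neg hs]
          exact if_neg fun hall => hs (hall v rfl)
      simp only [e4, mul_ite, mul_one, mul_zero, Finset.sum_ite_eq', mem_univ, if_true]
      unfold mm
      rw [hside]
  unfold EM
  have e5 : ∀ z : V' → S, (∏ v, mm side' μ c v (z v)) * f (z ∘ ι) =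
      ∑ x : V → S, ((∏ v, mm side' μ c v (z v)) * (if z ∘ ι = x then (1 : ℝ) else 0)) * f x := by
    intro z
    simp only [mul_ite, mul_one, mul_zero, ite_mul, zero_mul, Finset.sum_ite_eq, mem_univ,
      if_true]
  simp only [e5]
  rw [Finset.sum_comm]
  refine Finset.sum_congr rfl fun x _ => ?_
  rw [← Finset.sum_mul, key x]

/-- averages and the involution -/
theorem EM_flip {V : Type} [Fintype V] [DecidableEq V] {side : V → Bool} (φ : Equiv.Perm V)
    (hφ : ∀ v, side (φ v) = !(side v)) (τ : Equiv.Perm S) (hμ : ∀ x, μ (τ x) = μ x)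
    (hc : ∀ x, c (τ x) = !(c x)) (f : (V → S) → ℝ) :
    EM side μ c (fun z => f (fun v => τ (z (φ v)))) = EM side μ c f := by
  unfold EM
  let E : (V → S) ≃ (V → S) := Equiv.arrowCongr φ.symm τ
  conv_rhs => rw [← Equiv.sum_comp E]
  refine Finset.sum_congr rfl fun z _ => ?_
  have e1 : E z = fun v => τ (z (φ v)) := rfl
  rw [e1]
  congr 1
  have e2 : ∀ v, mm side μ c v (τ (z (φ v))) = mm side μ c (φ v) (z (φ v)) := by
    intro v
    unfold mm
    rw [hc, hμ, hφ]
    cases h1 : c (z (φ v)) <;> cases h2 : side v <;> simp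
  simp only [e2]
  exact (Equiv.prod_comp φ fun v => mm side μ c v (z v)).symm

theorem kk_tau {τ : Equiv.Perm S} (hA : ∀ x y, A (τ x) (τ y) = A x y)
    (hμ : ∀ x, μ (τ x) = μ x) (x y : S) : kk A μ (τ x) (τ y) = kk A μ x y := by
  unfold kk
  rw [hA, hμ]

theorem hQ_tau {V : Type} [DecidableEq V] {τ : Equiv.Perm S}
    (hA : ∀ x y, A (τ x) (τ y) = A x y) (hμ : ∀ x, μ (τ x) = μ x) (φ : Equiv.Perm V)
    (X : Finset V) (z : V → S) :
    hQ A μ X (fun v => τ (z (φ v))) = hQ A μ (X.map φ.toEmbedding) z := by
  unfold hQ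
  rw [← Equiv.sum_comp τ]
  refine Finset.sum_congr rfl fun y _ => ?_
  rw [hμ, Finset.prod_map]
  congr 1
  exact Finset.prod_congr rfl fun i _ => kk_tau hA hμ _ _

theorem hQ_map {V V' : Type} [DecidableEq V] [DecidableEq V'] (ι : V ↪ V') (X : Finset V)
    (z : V' → S) : hQ A μ (X.map ι) z = hQ A μ X (z ∘ ι) := by
  unfold hQ
  refine Finset.sum_congr rfl fun y _ => ?_
  rw [Finset.prod_map]
  rfl

/-- ONE sequence of relative entropies for both sides -/
theorem exists_dd_sym {V : Type} [Fintype V] [DecidableEq V] (side : V → Bool)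
    (h : Rev A μ c) (τ : Equiv.Perm S) (hA : ∀ x y, A (τ x) (τ y) = A x y)
    (hμ : ∀ x, μ (τ x) = μ x) (hc : ∀ x, c (τ x) = !(c x)) :
    ∃ d : ℕ → ℝ, d 0 = 0 ∧ d 1 = 0 ∧
      (∀ k, k + 2 ≤ Fintype.card V → 2 * d (k + 1) ≤ d k + d (k + 2)) ∧
      ∀ (σ : Bool) (X : Finset V), X.Nonempty → (∀ x ∈ X, side x = σ) →
        EM side μ c (fun z => hQ A μ X z * Real.log (hQ A μ X z)) = d X.card := by
  classical
  by_cases hV : Nonempty V
  · obtain ⟨v₀⟩ := hV
    let side' : V × Bool → Bool := Prod.snd
    obtain ⟨d, d0, d1, dc, dv⟩ := exists_dd_univ (side := side') h true ⟨(v₀, true), rfl⟩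
    have hcard : (univ.filter fun v : V × Bool => side' v = true).card = Fintype.card V := by
      have e : (univ.filter fun v : V × Bool => side' v = true) =
          univ.map ⟨fun v : V => (v, true), fun a b hab => (Prod.mk.inj hab).1⟩ := by
        ext ⟨v, b⟩
        rw [mem_filter, Finset.mem_map]
        constructor
        · rintro ⟨-, hb⟩
          exact ⟨v, mem_univ v, Prod.ext rfl (Eq.symm hb)⟩
        · rintro ⟨w, -, hw⟩
          refine ⟨mem_univ _, ?_⟩
          rw [← hw]
          rfl
      rw [e, Finset.card_map, Finset.card_univ]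
    refine ⟨d, d0, d1, fun k hk => dc k (by rw [hcard]; exact hk), ?_⟩
    intro σ X hX hσ
    let ι : V ↪ V × Bool := ⟨fun v => (v, side v), fun a b hab => (Prod.mk.inj hab).1⟩
    have e1 : EM side μ c (fun z => hQ A μ X z * Real.log (hQ A μ X z)) =
        EM side' μ c (fun z => hQ A μ (X.map ι) z * Real.log (hQ A μ (X.map ι) z)) := by
      rw [← EM_embed h (side := side) (side' := side') (ι := ι) ι.injective (fun v => rfl)]
      refine EM_congr fun z _ => ?_
      rw [hQ_map]
    have hXs : ∀ x ∈ X.map ι, side' x = σ := by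
      intro x hx
      rw [Finset.mem_map] at hx
      obtain ⟨v, hv, rfl⟩ := hx
      exact hσ v hv
    rw [e1]
    cases σ
    · let φ : Equiv.Perm (V × Bool) :=
        { toFun := fun p => (p.1, !p.2)
          invFun := fun p => (p.1, !p.2)
          left_inv := fun p => by simp
          right_inv := fun p => by simp }
      rw [← EM_flip (side := side') φ (fun v => rfl) τ hμ hc]
      have e2 : EM side' μ c (fun z => hQ A μ (X.map ι) (fun v => τ (z (φ v))) *
          Real.log (hQ A μ (X.map ι) (fun v => τ (z (φ v))))) =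
          EM side' μ c (fun z => hQ A μ ((X.map ι).map φ.toEmbedding) z *
            Real.log (hQ A μ ((X.map ι).map φ.toEmbedding) z)) :=
        EM_congr fun z _ => by rw [hQ_tau hA hμ]
      rw [e2, dv _ (by simpa using hX), Finset.card_map, Finset.card_map]
      intro x hx
      rw [Finset.mem_map] at hx
      obtain ⟨y, hy, rfl⟩ := hx
      show (!(y.2)) = true
      rw [show y.2 = false from hXs y hy]
      rfl
    · rw [dv _ (by simpa using hX) hXs, Finset.card_map]
  · refine ⟨fun _ => 0, rfl, rfl, fun _ _ => by simp, fun σ X hX _ => ?_⟩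
    obtain ⟨x, _⟩ := hX
    exact absurd ⟨x⟩ hV

end Sym2

end Vale.Agent.P050.Books
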