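import Vale.Agent.P050.R3.H987.Embed
import Vale.Agent.P050.Lev.Final
import Vale.Agent.P050.R4.H22.Near


/-!
# P050: from graphs to reversible chains with an involution which exchanges the colours

For a graph as a target it is enough to consider the reversible chains with an involution which
preserves the chain and exchanges the colours; near form.
-/

set_option linter.unusedSectionVars false

namespace Vale.Agent.P050.Books

open Finset Vale.Agent.P050.Lev Vale.Agent.P050.Ears Vale.Agent.P050.H149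

section words

variable {U : Type}

theorem ty_append {M N : ℕ} (u v : Fin M → U) (u' v' : Fin N → U) (a : U × U) :
    (ty (Fin.append u u') (Fin.append v v') a).val = (ty u v a).val + (ty u' v' a).val := by
  classical
  simp only [ty]
  rw [Finset.card_filter, Finset.card_filter, Finset.card_filter, Fin.sum_univ_add]
  simp only [Fin.append_left, Fin.append_right]

theorem ty_swap {N : ℕ} (u v : Fin N → U) (a b : U) :
    (ty v u (a, b)).val = (ty u v (b, a)).val := by
  classical
  simp only [ty]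
  congr 1
  ext i
  simp only [mem_filter, mem_univ, true_and]
  exact and_comm

theorem wt_append {α : Type} (f : α → ℝ) {M N : ℕ} (u : Fin M → α) (v : Fin N → α) :
    H149.wt f (Fin.append u v) = H149.wt f u * H149.wt f v := by
  unfold H149.wt
  rw [Fin.prod_univ_add]
  simp only [Fin.append_left, Fin.append_right]

theorem wt2_append (W : U → U → ℝ) {M N : ℕ} (u v : Fin M → U) (u' v' : Fin N → U) :
    wt2 W (Fin.append u u') (Fin.append v v') = wt2 W u v * wt2 W u' v' := by
  unfold wt2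
  rw [Fin.prod_univ_add]
  simp only [Fin.append_left, Fin.append_right]

theorem wt2_swap {W : U → U → ℝ} (hW : ∀ x y, W x y = W y x) {N : ℕ} (u v : Fin N → U) :
    wt2 W u v = wt2 W v u :=
  Finset.prod_congr rfl fun _ _ => hW _ _

/-- the symmetric type of a type -/
theorem ty_cross {N : ℕ} {u₀ v₀ u v u' v' : Fin N → U} (h : ty u v = ty u₀ v₀)
    (h' : ty u' v' = ty u₀ v₀) :
    ty (Fin.append u v') (Fin.append v u') = ty (Fin.append u₀ v₀) (Fin.append v₀ u₀) := by
  funext a
  apply Fin.ext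
  obtain ⟨a, b⟩ := a
  rw [ty_append, ty_append, ty_swap u' v', ty_swap u₀ v₀, h, h']

theorem ty_symm {N : ℕ} (u₀ v₀ : Fin N → U) {u v : Fin (N + N) → U}
    (h : ty u v = ty (Fin.append u₀ v₀) (Fin.append v₀ u₀)) :
    ty v u = ty (Fin.append u₀ v₀) (Fin.append v₀ u₀) := by
  funext a
  apply Fin.ext
  obtain ⟨a, b⟩ := a
  rw [ty_swap u v, h, ty_append, ty_append, ty_swap u₀ v₀ a b, ty_swap u₀ v₀ b a]
  exact Nat.add_comm _ _

variable [Fintype U]

open Classical in
theorem qU_sq {m : U → ℝ} {W : U → U → ℝ} (hm : ∀ x, 0 ≤ m x) (hW0 : ∀ x y, 0 ≤ W x y)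
    (hW : ∀ x y, W x y = W y x) {N : ℕ} (u₀ v₀ : Fin N → U) :
    qU (ty u₀ v₀) (fun _ => m) W ^ 2 ≤
      qU (ty (Fin.append u₀ v₀) (Fin.append v₀ u₀)) (fun _ => m) W := by
  have e1 : qU (ty (Fin.append u₀ v₀) (Fin.append v₀ u₀)) (fun _ => m) W =
      ∑ u : Fin N → U, ∑ v' : Fin N → U, ∑ v : Fin N → U, ∑ u' : Fin N → U,
        if ty (Fin.append u v') (Fin.append v u') =
            ty (Fin.append u₀ v₀) (Fin.append v₀ u₀) then
          H149.wt m (Fin.append u v') * H149.wt m (Fin.append v u') *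
            wt2 W (Fin.append u v') (Fin.append v u') else 0 := by
    unfold qU
    rw [sum_append N N]
    refine Finset.sum_congr rfl fun u _ => Finset.sum_congr rfl fun v' _ => ?_
    exact sum_append N N _
  have e2 : qU (ty u₀ v₀) (fun _ => m) W ^ 2 =
      ∑ u : Fin N → U, ∑ v' : Fin N → U, ∑ v : Fin N → U, ∑ u' : Fin N → U,
        (if ty u v = ty u₀ v₀ then H149.wt m u * H149.wt m v * wt2 W u v else 0) *
        (if ty u' v' = ty u₀ v₀ then H149.wt m u' * H149.wt m v' * wt2 W u' v' else 0) := by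
    rw [pow_two]
    unfold qU
    rw [Finset.sum_mul_sum]
    have : ∀ u u' : Fin N → U,
        (∑ v : Fin N → U, if ty u v = ty u₀ v₀ then
          H149.wt m u * H149.wt m v * wt2 W u v else 0) *
        (∑ v' : Fin N → U, if ty u' v' = ty u₀ v₀ then
          H149.wt m u' * H149.wt m v' * wt2 W u' v' else 0) =
        ∑ v' : Fin N → U, ∑ v : Fin N → U,
        (if ty u v = ty u₀ v₀ then H149.wt m u * H149.wt m v * wt2 W u v else 0) *
        (if ty u' v' = ty u₀ v₀ then H149.wt m u' * H149.wt m v' * wt2 W u' v' else 0) := by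
      intro u u'
      rw [Finset.sum_mul_sum, Finset.sum_comm]
    simp only [this]
    refine Finset.sum_congr rfl fun u _ => ?_
    rw [Finset.sum_comm]
    refine Finset.sum_congr rfl fun v' _ => ?_
    rw [Finset.sum_comm]
  rw [e1, e2]
  refine Finset.sum_le_sum fun u _ => Finset.sum_le_sum fun v' _ => Finset.sum_le_sum fun v _ =>
    Finset.sum_le_sum fun u' _ => ?_
  have hnn : 0 ≤ H149.wt m (Fin.append u v') * H149.wt m (Fin.append v u') *
            wt2 W (Fin.append u v') (Fin.append v u') :=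
    mul_nonneg (mul_nonneg (wt_nonneg hm _) (wt_nonneg hm _)) (wt2_nonneg hW0 _ _)
  by_cases h1 : ty u v = ty u₀ v₀
  · by_cases h2 : ty u' v' = ty u₀ v₀
    · rw [if_pos h1, if_pos h2, if_pos (ty_cross h1 h2), wt_append, wt_append, wt2_append,
        wt2_swap hW v' u']
      exact le_of_eq (by ring)
    · rw [if_neg h2, mul_zero]
      split_ifs
      · exact hnn
      · exact le_rfl
  · rw [if_neg h1, zero_mul]
    split_ifs
    · exact hnn
    · exact le_rfl

variable {N : ℕ} {τ : U × U → Fin (N + 1)}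

theorem LA_eq_LB (hτ : ∀ u v : Fin N → U, ty u v = τ → ty v u = τ) : LA τ = LB τ := by
  classical
  ext u
  simp only [LA, LB, mem_filter, mem_univ, true_and]
  exact ⟨fun ⟨v, hv⟩ => ⟨v, hτ _ _ hv⟩, fun ⟨v, hv⟩ => ⟨v, hτ _ _ hv⟩⟩

theorem mU_symm (hτ : ∀ u v : Fin N → U, ty u v = τ → ty v u = τ) (b : Bool) (u : Fin N → U) :
    mU τ (!b) u = mU τ b u := by
  classical
  cases b
  · simp only [mU, Bool.not_false, if_true, Bool.false_eq_true, if_false, LA_eq_LB hτ]
  · simp only [mU, Bool.not_true, if_true, Bool.false_eq_true, if_false, LA_eq_LB hτ]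

theorem WU_symm (hτ : ∀ u v : Fin N → U, ty u v = τ → ty v u = τ) (d : ℕ) (u v : Fin N → U) :
    WU τ d u v = WU τ d v u := by
  classical
  unfold WU
  by_cases h : ty u v = τ
  · rw [if_pos h, if_pos (hτ _ _ h)]
  · rw [if_neg h, if_neg fun h' => h (hτ _ _ h')]

theorem dg_le (u₀ : Fin N → U) : (dg τ u₀ : ℝ) ≤ (LB τ).card := by
  classical
  have : dg τ u₀ ≤ (LB τ).card := by
    unfold dg
    refine Finset.card_le_card fun v hv => ?_
    exact mem_LB (mem_filter.1 hv).2
  exact_mod_cast this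

end words

section chain

variable {U : Type} [Fintype U]

open Classical in
/-- the states with nonzero weight: exchange of the colours -/
noncomputable def flipSt {m : Bool → U → ℝ} (hm : ∀ b x, m (!b) x = m b x) :
    Equiv.Perm (St m) where
  toFun s := ⟨(!s.1.1, s.1.2), by rw [hm]; exact s.2⟩
  invFun s := ⟨(!s.1.1, s.1.2), by rw [hm]; exact s.2⟩
  left_inv s := by simp
  right_inv s := by simp

theorem stA_flip {m : Bool → U → ℝ} {W : U → U → ℝ} (hm : ∀ b x, m (!b) x = m b x)
    (hW : ∀ x y, W x y = W y x) (s t : St m) :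
    stA m W (flipSt hm s) (flipSt hm t) = stA m W s t := by
  obtain ⟨⟨b, x⟩, hx⟩ := s
  obtain ⟨⟨b', y⟩, hy⟩ := t
  have h1 := hm true y
  simp only [Bool.not_true] at h1
  cases b <;> cases b' <;> simp [stA, flipSt, h1, hW x y]

open Classical in
/-- the sum over the states with nonzero weight is at most the density -/
theorem sum_wt_le_dens {V : Type} [Fintype V] [DecidableEq V] (H : SimpleGraph V)
    (side : V → Bool) (m : Bool → U → ℝ) (W : U → U → ℝ) (hm : ∀ b x, 0 ≤ m b x)
    (hW : ∀ x y, 0 ≤ W x y) :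
    ∑ z : V → St m, Ears.wt H side (stA m W) (fun s => m s.1.1 s.1.2) (fun s => s.1.1) z ≤
      H149.dens (sideEdges H side) side m W := by
  let G : (V → U) → ℝ := fun z =>
    (∏ v, m (side v) (z v)) * ∏ e ∈ sideEdges H side, W (z e.1) (z e.2)
  let φ : (V → St m) → (V → U) := fun z v => (z v).1.2
  have hG : ∀ z, 0 ≤ G z := fun z =>
    mul_nonneg (Finset.prod_nonneg fun _ _ => hm _ _) (Finset.prod_nonneg fun _ _ => hW _ _)
  have h1 : ∑ z : V → St m, Ears.wt H side (stA m W) (fun s => m s.1.1 s.1.2) (fun s => s.1.1) z =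
      ∑ z ∈ univ.filter (fun z : V → St m => ∀ v, (z v).1.1 = side v), G (φ z) := by
    rw [Finset.sum_filter]
    refine Finset.sum_congr rfl fun z _ => ?_
    unfold Ears.wt
    split_ifs with hz
    swap
    · rfl
    congr 1
    · refine Finset.prod_congr rfl fun v _ => ?_
      rw [← hz v]
    · refine Finset.prod_congr rfl fun e he => ?_
      have he' := (mem_filter.1 he).2
      have z1 : (z e.1).1.1 = false := (hz e.1).trans he'.2.1
      have z2 : (z e.2).1.1 = true := (hz e.2).trans he'.2.2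
      simp only [stA]
      rw [if_pos z1, if_pos z2, mul_div_assoc, div_self (z e.2).2, mul_one]
  rw [h1]
  have hinj : Set.InjOn φ ↑(univ.filter (fun z : V → St m => ∀ v, (z v).1.1 = side v)) := by
    intro z hz z' hz' hzz
    have a1 := (mem_filter.1 (Finset.mem_coe.1 hz)).2
    have a2 := (mem_filter.1 (Finset.mem_coe.1 hz')).2
    funext v
    apply Subtype.ext
    exact Prod.ext ((a1 v).trans (a2 v).symm) (congrFun hzz v)
  rw [← Finset.sum_image hinj]
  exact Finset.sum_le_sum_of_subset_of_nonneg (Finset.subset_univ _) fun z _ _ => hG z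

end chain

/-- comparison of geometric sequences up to a polynomial -/
theorem le_of_pow_le_poly {a b : ℝ} (ha : 0 ≤ a) (hb : 0 ≤ b) (K : ℕ)
    (h : ∀ N : ℕ, a ^ N ≤ b ^ N * ((N : ℝ) + 1) ^ K) : a ≤ b := by
  rcases ha.eq_or_lt with ha' | hapos
  · rw [← ha']
    exact hb
  by_contra hlt
  rw [not_le] at hlt
  set r := b / a with hr
  have hr0 : 0 ≤ r := div_nonneg hb ha
  have hr1 : r < 1 := (div_lt_one hapos).2 hlt
  have hge : ∀ N : ℕ, 1 ≤ ((N : ℝ) + 1) ^ K * r ^ N := by
    intro N
    rw [hr, div_pow, mul_div_assoc', le_div_iff₀ (pow_pos hapos _), one_mul, mul_comm]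
    exact h N
  have hrpos : 0 < r := by
    rcases hr0.eq_or_lt with h' | h'
    · have := hge 1
      rw [← h'] at this
      norm_num at this
    · exact h'
  have hlim := tendsto_pow_const_mul_const_pow_of_abs_lt_one K (r := r) (by
    rw [abs_of_nonneg hr0]; exact hr1)
  have hlim' := hlim.comp (Filter.tendsto_add_atTop_nat 1)
  have : r ≤ 0 := by
    refine ge_of_tendsto' hlim' fun N => ?_
    simp only [Function.comp_apply]
    push_cast
    calc r = 1 * r := (one_mul r).symm
      _ ≤ (((N : ℝ) + 1) ^ K * r ^ N) * r := mul_le_mul_of_nonneg_right (hge N) hr0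
      _ = ((N : ℝ) + 1) ^ K * r ^ (N + 1) := by rw [pow_succ]; ring
  linarith

section near

variable {V : Type} [Fintype V] [DecidableEq V]

open Classical in
theorem key_sym (H : SimpleGraph V) (side : V → Bool)
    (hdir : ∀ e ∈ sideEdges H side, side e.1 = false ∧ side e.2 = true)
    (hiso : ∀ v, ∃ e ∈ sideEdges H side, e.1 = v ∨ e.2 = v) {k : ℝ} (hk : 0 ≤ k)
    (h : ∀ (S : Type) [Fintype S] [DecidableEq S] [Nonempty S] (A : Matrix S S ℝ) (μ : S → ℝ)
      (c : S → Bool), Rev A μ c → ∀ τ : Equiv.Perm S, (∀ x y, A (τ x) (τ y) = A x y) →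
      (∀ x, μ (τ x) = μ x) → (∀ x, c (τ x) = !(c x)) → ∀ δ : ℝ, 0 < δ → δ ≤ 1 →
      (∀ u v, A u v * δ ≤ μ v) → δ ^ k ≤ ∑ z : V → S, Ears.wt H side A μ c z)
    {U : Type} [Fintype U] (m : U → ℝ) (W : U → U → ℝ) (hm : ∀ x, 0 ≤ m x)
    (hm1 : ∑ x, m x = 1) (hW : ∀ x y, 0 ≤ W x y) (hW1 : ∀ x y, W x y ≤ 1)
    {N : ℕ} {τ : U × U → Fin (N + 1)}
    (hτ : ∀ u v : Fin N → U, ty u v = τ → ty v u = τ) {u₀ v₀ : Fin N → U} (h₀ : ty u₀ v₀ = τ) :
    qU τ (fun _ => m) W ^ (((sideEdges H side).card : ℝ) + k) ≤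
      H149.dens (sideEdges H side) side (fun _ => m) W ^ N := by
  set E := sideEdges H side with hE
  have hLB := card_LB_pos h₀
  have hdg := dg_pos h₀
  set δ : ℝ := dg τ u₀ / (LB τ).card with hδ
  have hδ0 : 0 < δ := div_pos hdg hLB
  have hδ1 : δ ≤ 1 := (div_le_one hLB).2 (dg_le u₀)
  have hmU := mU_nonneg τ
  have hWU := WU_nonneg τ (dg τ u₀)
  have hrev := st_rev (mU τ) (WU τ (dg τ u₀)) hmU (mU_sum h₀) hWU (WU_row h₀) (WU_col h₀)
  have hne : Nonempty (St (mU τ)) := by
    have h1 : ∃ x, mU τ false x ≠ 0 := by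
      by_contra hcon
      push Not at hcon
      have := mU_sum h₀ false
      simp [hcon] at this
    obtain ⟨x, hx⟩ := h1
    exact ⟨⟨(false, x), hx⟩⟩
  have hWδ : ∀ u v, WU τ (dg τ u₀) u v * δ ≤ 1 := by
    intro u v
    unfold WU
    split_ifs
    · rw [hδ]
      apply le_of_eq
      field_simp
    · rw [zero_mul]
      exact zero_le_one
  have h1 : δ ^ k ≤ H149.dens E side (mU τ) (WU τ (dg τ u₀)) := by
    refine (h (St (mU τ)) _ _ _ hrev (flipSt (mU_symm hτ)) (stA_flip _ (WU_symm hτ _))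
      (fun s => mU_symm hτ _ _) (fun s => rfl) δ hδ0 hδ1 ?_).trans
      (sum_wt_le_dens H side _ _ hmU hWU)
    intro s t
    have hmt := hmU t.1.1 t.1.2
    unfold stA
    split_ifs
    · calc WU τ (dg τ u₀) s.1.2 t.1.2 * mU τ t.1.1 t.1.2 * δ
          = (WU τ (dg τ u₀) s.1.2 t.1.2 * δ) * mU τ t.1.1 t.1.2 := by ring
        _ ≤ 1 * mU τ t.1.1 t.1.2 := mul_le_mul_of_nonneg_right (hWδ _ _) hmt
        _ = _ := one_mul _
    · rw [zero_mul]
      exact hmt
    · calc WU τ (dg τ u₀) t.1.2 s.1.2 * mU τ t.1.1 t.1.2 * δ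
          = (WU τ (dg τ u₀) t.1.2 s.1.2 * δ) * mU τ t.1.1 t.1.2 := by ring
        _ ≤ 1 * mU τ t.1.1 t.1.2 := mul_le_mul_of_nonneg_right (hWδ _ _) hmt
        _ = _ := one_mul _
    · rw [zero_mul]
      exact hmt
  have hm' : ∀ (b : Bool) x, 0 ≤ (fun _ : Bool => m) b x := fun _ => hm
  have hm1' : ∀ b : Bool, ∑ x, (fun _ : Bool => m) b x = 1 := fun _ => hm1
  have hc0 := cU_nonneg τ hm' u₀ v₀
  have hc1 := cU_le_one hm' hm1' h₀
  set c := cU τ (fun _ => m) u₀ v₀ with hc
  have hω0 := wt2_nonneg hW u₀ v₀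
  have hω1 : wt2 W u₀ v₀ ≤ 1 := Finset.prod_le_one (fun _ _ => hW _ _) fun _ _ => hW1 _ _
  set κ := wt2 W u₀ v₀ * dg τ u₀ / (LB τ).card with hκ
  have hκ0 : 0 ≤ κ := by positivity
  have hκδ : κ ≤ δ := by
    rw [hκ, hδ, mul_div_assoc]
    exact mul_le_of_le_one_left hδ0.le hω1
  have hcmp : (∏ v, c (side v)) * κ ^ E.card * H149.dens E side (mU τ) (WU τ (dg τ u₀)) ≤
      H149.dens E side (fun _ => m) W ^ N := by
    rw [dens_pow]
    unfold H149.dens
    rw [mul_sum]
    refine sum_le_sum fun z _ => ?_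
    calc (∏ v, c (side v)) * κ ^ E.card *
          ((∏ v, mU τ (side v) (z v)) * ∏ e ∈ E, WU τ (dg τ u₀) (z e.1) (z e.2))
        = (∏ v, c (side v) * mU τ (side v) (z v)) *
          ∏ e ∈ E, κ * WU τ (dg τ u₀) (z e.1) (z e.2) := by
          rw [prod_mul_distrib, prod_mul_distrib, prod_const]
          ring
      _ ≤ _ := by
          refine mul_le_mul ?_ ?_ ?_ ?_
          · exact prod_le_prod (fun v _ => mul_nonneg (hc0 _) (mU_nonneg τ _ _))
              fun v _ => cU_mul_le hm' h₀ _ _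
          · exact prod_le_prod (fun e _ => mul_nonneg hκ0 (WU_nonneg τ _ _ _))
              fun e _ => WU_mul_le hW h₀ _ _
          · exact prod_nonneg fun e _ => mul_nonneg hκ0 (WU_nonneg τ _ _ _)
          · exact prod_nonneg fun v _ => H149.wt_nonneg hm _
  have hq0 : 0 ≤ qU τ (fun _ => m) W := by
    rw [qU_eq (fun _ => m) W h₀]
    exact mul_nonneg (mul_nonneg (hc0 _) (hc0 _)) hκ0
  have hqκ : qU τ (fun _ => m) W ≤ κ := by
    rw [qU_eq (fun _ => m) W h₀]
    refine mul_le_of_le_one_left hκ0 ?_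
    exact mul_le_one₀ (hc1 _) (hc0 _) (hc1 _)
  calc qU τ (fun _ => m) W ^ ((E.card : ℝ) + k)
      = qU τ (fun _ => m) W ^ E.card * qU τ (fun _ => m) W ^ k := by
        rw [Real.rpow_add_of_nonneg hq0 (Nat.cast_nonneg _) hk, Real.rpow_natCast]
    _ ≤ qU τ (fun _ => m) W ^ E.card * δ ^ k := by
        refine mul_le_mul_of_nonneg_left ?_ (pow_nonneg hq0 _)
        exact Real.rpow_le_rpow hq0 (hqκ.trans hκδ) hk
    _ = (c false * c true) ^ E.card * κ ^ E.card * δ ^ k := by
        rw [qU_eq (fun _ => m) W h₀, mul_pow]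
    _ ≤ (∏ v, c (side v)) * κ ^ E.card * δ ^ k := by
        refine mul_le_mul_of_nonneg_right ?_ (Real.rpow_nonneg hδ0.le _)
        exact mul_le_mul_of_nonneg_right (prod_side_ge hdir hiso c hc0 hc1)
          (pow_nonneg hκ0 _)
    _ ≤ (∏ v, c (side v)) * κ ^ E.card * H149.dens E side (mU τ) (WU τ (dg τ u₀)) :=
        mul_le_mul_of_nonneg_left h1
          (mul_nonneg (prod_nonneg fun v _ => hc0 _) (pow_nonneg hκ0 _))
    _ ≤ _ := hcmp

open Classical in
/-- weighted symmetric kernels bounded by one -/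
theorem near_dens_sym (H : SimpleGraph V) (side : V → Bool)
    (hdir : ∀ e ∈ sideEdges H side, side e.1 = false ∧ side e.2 = true)
    (hiso : ∀ v, ∃ e ∈ sideEdges H side, e.1 = v ∨ e.2 = v) {k : ℝ} (hk : 0 ≤ k)
    (hE1 : 0 < (sideEdges H side).card)
    (h : ∀ (S : Type) [Fintype S] [DecidableEq S] [Nonempty S] (A : Matrix S S ℝ) (μ : S → ℝ)
      (c : S → Bool), Rev A μ c → ∀ τ : Equiv.Perm S, (∀ x y, A (τ x) (τ y) = A x y) →
      (∀ x, μ (τ x) = μ x) → (∀ x, c (τ x) = !(c x)) → ∀ δ : ℝ, 0 < δ → δ ≤ 1 →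
      (∀ u v, A u v * δ ≤ μ v) → δ ^ k ≤ ∑ z : V → S, Ears.wt H side A μ c z)
    {U : Type} [Fintype U] (m : U → ℝ) (W : U → U → ℝ) (hm : ∀ x, 0 ≤ m x)
    (hm1 : ∑ x, m x = 1) (hW : ∀ x y, 0 ≤ W x y) (hW1 : ∀ x y, W x y ≤ 1)
    (hWs : ∀ x y, W x y = W y x) :
    (∑ x, ∑ y, m x * m y * W x y) ^ (((sideEdges H side).card : ℝ) + k) ≤
      H149.dens (sideEdges H side) side (fun _ => m) W := by
  set E := sideEdges H side with hE
  set p := ∑ x, ∑ y, m x * m y * W x y with hp
  have hp0 : 0 ≤ p := sum_nonneg fun x _ => sum_nonneg fun y _ =>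
    mul_nonneg (mul_nonneg (hm _) (hm _)) (hW _ _)
  have ht0 : 0 ≤ H149.dens E side (fun _ => m) W := sum_nonneg fun z _ =>
    mul_nonneg (prod_nonneg fun v _ => hm _) (prod_nonneg fun e _ => hW _ _)
  set r : ℝ := (E.card : ℝ) + k with hr
  have hr0 : 0 < r := by
    have : (0 : ℝ) < E.card := by exact_mod_cast hE1
    linarith
  obtain ⟨K, hK⟩ := exists_nat_ge ((2 * Fintype.card (U × U) : ℝ) * r)
  have hN : ∀ N : ℕ, ((p ^ r) ^ 2) ^ N ≤
      (H149.dens E side (fun _ => m) W ^ 2) ^ N * ((N : ℝ) + 1) ^ K := by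
    intro N
    have hsum := sum_qU (fun _ => m) W N
    have hsum' : ∑ τ : U × U → Fin (N + 1), qU τ (fun _ => m) W = p ^ N := hsum
    have hne : (univ : Finset (U × U → Fin (N + 1))).Nonempty := univ_nonempty
    obtain ⟨τ, _, hτ⟩ := exists_le_of_sum_le (s := univ)
      (f := fun _ : U × U → Fin (N + 1) => p ^ N / ((N : ℝ) + 1) ^ Fintype.card (U × U))
      (g := fun τ => qU τ (fun _ => m) W) hne (by
        rw [hsum', sum_const, nsmul_eq_mul, card_univ, Fintype.card_fun, Fintype.card_fin]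
        push_cast
        have : (0 : ℝ) < ((N : ℝ) + 1) ^ Fintype.card (U × U) := by positivity
        rw [mul_div_cancel₀ _ this.ne'])
    have hτ' : p ^ N / ((N : ℝ) + 1) ^ Fintype.card (U × U) ≤ qU τ (fun _ => m) W := hτ
    have hpos : (0 : ℝ) < ((N : ℝ) + 1) ^ Fintype.card (U × U) := by positivity
    have hfin : p ^ N ≤ qU τ (fun _ => m) W * ((N : ℝ) + 1) ^ Fintype.card (U × U) :=
      (div_le_iff₀ hpos).1 hτ'
    have hp1 : ((p ^ r) ^ 2) ^ N = ((p ^ N) ^ 2) ^ r := by
      rw [← pow_mul, ← pow_mul, ← Real.rpow_natCast, ← Real.rpow_natCast, ← Real.rpow_mul hp0,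
        ← Real.rpow_mul hp0]
      congr 1
      push_cast
      ring
    have hN1 : (1 : ℝ) ≤ (N : ℝ) + 1 := by linarith [Nat.cast_nonneg (α := ℝ) N]
    by_cases hex : ∃ u₀ v₀, ty u₀ v₀ = τ
    · obtain ⟨u₀, v₀, rfl⟩ := hex
      have hkey := key_sym H side hdir hiso hk h m W hm hm1 hW hW1
        (τ := ty (Fin.append u₀ v₀) (Fin.append v₀ u₀)) (fun u v => ty_symm u₀ v₀) rfl
      have hsq := qU_sq hm hW hWs u₀ v₀
      have hq0 : 0 ≤ qU (ty u₀ v₀) (fun _ => m) W :=
        le_trans (div_nonneg (pow_nonneg hp0 _) hpos.le) hτ'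
      calc ((p ^ r) ^ 2) ^ N = ((p ^ N) ^ 2) ^ r := hp1
        _ ≤ ((qU (ty u₀ v₀) (fun _ => m) W * ((N : ℝ) + 1) ^ Fintype.card (U × U)) ^ 2) ^ r :=
            Real.rpow_le_rpow (by positivity) (pow_le_pow_left₀ (pow_nonneg hp0 _) hfin _)
              hr0.le
        _ = (qU (ty u₀ v₀) (fun _ => m) W ^ 2) ^ r *
            ((((N : ℝ) + 1) ^ Fintype.card (U × U)) ^ 2) ^ r := by
            rw [mul_pow, Real.mul_rpow (by positivity) (by positivity)]
        _ ≤ (H149.dens E side (fun _ => m) W ^ 2) ^ N * ((N : ℝ) + 1) ^ K := by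
            refine mul_le_mul ?_ ?_ (by positivity) (by positivity)
            · refine (Real.rpow_le_rpow (by positivity) hsq hr0.le).trans ?_
              refine hkey.trans (le_of_eq ?_)
              rw [← pow_mul]
              congr 1
              omega
            · rw [← pow_mul, ← Real.rpow_natCast, ← Real.rpow_mul (by positivity),
                ← Real.rpow_natCast ((N : ℝ) + 1) K]
              refine Real.rpow_le_rpow_of_exponent_le hN1 ?_
              push_cast
              have h2 : ((Fintype.card (U × U) : ℝ)) * 2 * r =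
                  (2 * Fintype.card (U × U) : ℝ) * r := by ring
              rw [h2]
              exact hK
    · have hq0 : qU τ (fun _ => m) W = 0 := by
        unfold qU
        exact sum_eq_zero fun u _ => sum_eq_zero fun v _ => if_neg fun h => hex ⟨u, v, h⟩
      have hz : p ^ N = 0 := le_antisymm (by rw [hq0, zero_mul] at hfin; exact hfin)
        (pow_nonneg hp0 _)
      rw [hp1, hz, zero_pow two_ne_zero, Real.zero_rpow hr0.ne']
      positivity
  have hle := le_of_pow_le_poly (a := (p ^ r) ^ 2) (b := H149.dens E side (fun _ => m) W ^ 2)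
    (by positivity) (by positivity) K hN
  exact (pow_le_pow_iff_left₀ (by positivity) ht0 two_ne_zero).1 hle

open Classical in
/-- **Reduction for graphs.** It is enough to bound the sum over the copies in each reversible
chain with an involution which preserves the chain and exchanges the colours. -/
theorem near_of_rev_sym (H : SimpleGraph V) (side : V → Bool)
    (hs : ∀ u v, H.Adj u v → side u ≠ side v) (hiso : ∀ v, ∃ u, H.Adj v u) {k : ℝ} (hk : 0 ≤ k)
    (h : ∀ (S : Type) [Fintype S] [DecidableEq S] [Nonempty S] (A : Matrix S S ℝ) (μ : S → ℝ)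
      (c : S → Bool), Rev A μ c → ∀ τ : Equiv.Perm S, (∀ x y, A (τ x) (τ y) = A x y) →
      (∀ x, μ (τ x) = μ x) → (∀ x, c (τ x) = !(c x)) → ∀ δ : ℝ, 0 < δ → δ ≤ 1 →
      (∀ u v, A u v * δ ≤ μ v) → δ ^ k ≤ ∑ z : V → S, Ears.wt H side A μ c z)
    {H₀ : SimpleGraph V} (h₀ : H₀ ≤ H) {U : Type} [Finite U] [Nonempty U] (G : SimpleGraph U) :
    edgeDensity G ^ ((Nat.card H.edgeSet : ℝ) + k) ≤ homDensity H₀ G := by
  refine le_trans ?_ (homDensity_anti h₀ G)
  have := Fintype.ofFinite U
  set n := Fintype.card U with hn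
  have hn0 : (0 : ℝ) < n := by
    rw [hn]
    exact_mod_cast Fintype.card_pos
  rcases isEmpty_or_nonempty V with hV | hV
  · -- no vertices
    have h1 : homDensity H G = 1 := by
      unfold homDensity
      have hc : Nat.card (H →g G) = 1 := by
        rw [Nat.card_eq_one_iff_unique]
        exact ⟨⟨fun f g => by ext v; exact hV.elim v⟩,
          ⟨⟨fun v => hV.elim v, fun {a} => hV.elim a⟩⟩⟩
      rw [hc, Nat.card_of_isEmpty (α := V)]
      simp
    rw [h1]
    have h2 : 0 ≤ edgeDensity G := by unfold edgeDensity; positivity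
    exact Real.rpow_le_one h2 (edgeDensity_le_one G) (by positivity)
  have hdir : ∀ e ∈ sideEdges H side, side e.1 = false ∧ side e.2 = true := by
    intro e he
    exact (mem_filter.1 he).2.2
  have hiso' : ∀ v, ∃ e ∈ sideEdges H side, e.1 = v ∨ e.2 = v := by
    intro v
    obtain ⟨u, hu⟩ := hiso v
    have h1 := hs v u hu
    cases hv : side v
    · refine ⟨(v, u), ?_, Or.inl rfl⟩
      simp only [sideEdges, mem_filter, mem_univ, true_and]
      refine ⟨hu, hv, ?_⟩
      cases hu' : side u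
      · exact absurd (hv.trans hu'.symm) h1
      · rfl
    · refine ⟨(u, v), ?_, Or.inr rfl⟩
      simp only [sideEdges, mem_filter, mem_univ, true_and]
      refine ⟨hu.symm, ?_, hv⟩
      cases hu' : side u
      · rfl
      · exact absurd (hu'.symm ▸ hv : side v = side u) h1
  have hE1 : 0 < (sideEdges H side).card := by
    obtain ⟨v⟩ := hV
    obtain ⟨e, he, _⟩ := hiso' v
    exact card_pos.2 ⟨e, he⟩
  let φ : U ≃ Fin n := Fintype.equivFin U
  let W : Fin n → Fin n → ℝ := fun i j => if G.Adj (φ.symm i) (φ.symm j) then 1 else 0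
  have key := near_dens_sym H side hdir hiso' hk hE1 h (U := Fin n) (fun _ => 1 / n) W
    (fun _ => by positivity) (by simp [hn0.ne'])
    (fun i j => by simp only [W]; split_ifs <;> norm_num)
    (fun i j => by simp only [W]; split_ifs <;> norm_num)
    (fun i j => by simp only [W, G.adj_comm])
  rw [card_sideEdges H side hs] at key
  unfold H149.dens at key
  have hL : ∑ i, ∑ j, 1 / (n : ℝ) * (1 / n) * W i j = edgeDensity G := by
    have h1 : ∑ i, ∑ j, W i j = 2 * (Nat.card G.edgeSet : ℝ) := by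
      have h2 : ∑ i, ∑ j, W i j = ∑ u, ∑ v, (if G.Adj u v then (1 : ℝ) else 0) := by
        rw [← Equiv.sum_comp φ]
        refine Finset.sum_congr rfl fun u _ => ?_
        rw [← Equiv.sum_comp φ]
        refine Finset.sum_congr rfl fun v _ => ?_
        simp [W]
      rw [h2, Nat.card_eq_fintype_card, ← SimpleGraph.edgeFinset_card]
      have h3 := G.sum_degrees_eq_twice_card_edges
      have h4 : ((∑ u, G.degree u : ℕ) : ℝ) = ((2 * G.edgeFinset.card : ℕ) : ℝ) := by
        rw [h3]
      push_cast at h4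
      rw [← h4]
      refine Finset.sum_congr rfl fun u _ => ?_
      rw [Finset.sum_boole, ← SimpleGraph.card_neighborFinset_eq_degree]
      congr 2
      ext v
      simp
    simp_rw [← Finset.mul_sum]
    rw [h1]
    unfold edgeDensity
    rw [Nat.card_eq_fintype_card (α := U), ← hn]
    field_simp
  have hR : ∑ z : V → Fin n, (∏ _v : V, 1 / (n : ℝ)) * ∏ e ∈ sideEdges H side, W (z e.1) (z e.2)
      = homDensity H G := by
    have h1 : ∀ z : V → Fin n, ∏ e ∈ sideEdges H side, W (z e.1) (z e.2)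
        = if (∀ e ∈ sideEdges H side, G.Adj (φ.symm (z e.1)) (φ.symm (z e.2))) then 1 else 0 := by
      intro z
      simp only [W]
      rw [Finset.prod_ite_zero]
      simp
    simp_rw [h1, ← Finset.mul_sum]
    rw [Finset.sum_boole, Finset.prod_const, Finset.card_univ]
    unfold homDensity
    rw [Nat.card_eq_fintype_card (α := U), ← hn, Nat.card_eq_fintype_card (α := V)]
    have h2 : Nat.card (H →g G) = (univ.filter fun z : V → Fin n =>
        ∀ e ∈ sideEdges H side, G.Adj (φ.symm (z e.1)) (φ.symm (z e.2))).card := by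
      rw [← Fintype.card_subtype, ← Nat.card_eq_fintype_card]
      refine Nat.card_congr ⟨fun f => ⟨fun v => φ (f v), ?_⟩, fun z => ⟨fun v => φ.symm (z.1 v), ?_⟩,
        ?_, ?_⟩
      · intro e he
        simp only [sideEdges, Finset.mem_filter, Finset.mem_univ, true_and] at he
        simpa using f.map_rel he.1
      · intro u v huv
        have h3 := hs u v huv
        cases hu : side u
        · cases hv : side v
          · exact absurd (hu.trans hv.symm) h3
          · exact z.2 (u, v) (by simp [sideEdges, huv, hu, hv])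
        · cases hv : side v
          · exact (z.2 (v, u) (by simp [sideEdges, huv.symm, hu, hv])).symm
          · exact absurd (hu.trans hv.symm) h3
      · intro f
        ext v
        simp
      · intro z
        ext v
        simp
    rw [h2, one_div, inv_pow]
    ring
  rw [hL, hR] at key
  exact key

end near

end Vale.Agent.P050.Books
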